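import Vale.Agent.P366Z.Int

/-!
# P366Y, block H: Hölder and Lipschitz estimates (definitions, rows)
-/

open MeasureTheory Metric Filter Topology Set
open scoped ContDiff ENNReal
open Vale.Agent.P366.Stmt

noncomputable section

namespace Vale.Agent.P366Z.H

variable {n : ℕ}

/-- the volume of a superlevel set in a ball -/
def ms (w : E n → ℝ) (x : E n) (ρ k : ℝ) : ℝ := volume.real (ball x ρ ∩ {y | k < w y})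

/-- the energy on a superlevel set in a ball -/
def eg (w : E n → ℝ) (x : E n) (ρ k : ℝ) : ℝ :=
  ∫ y in ball x ρ ∩ {y | k < w y}, ‖fderiv ℝ w y‖ ^ 2

/-- the energy inequality on superlevel sets, at the scale `r` -/
def Cac (w : E n → ℝ) (x : E n) (r γ M : ℝ) : Prop :=
  ∀ ρ ρ' k H : ℝ, 0 < ρ → ρ < ρ' → ρ' ≤ r → 0 ≤ H → H ≤ 2 * M →
    (∀ y ∈ ball x ρ', w y ≤ k + H) →
    eg w x ρ k ≤ γ * (H ^ 2 / (ρ' - ρ) ^ 2 + 1 / r ^ 2) * ms w x ρ' k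

/-- **SOB**: the Sobolev inequality on superlevel sets -/
def SOB : Prop := ∀ m : ℕ, 1 ≤ m → ∃ C > (0 : ℝ), ∀ (w : E (m + 1) → ℝ) (x : E (m + 1))
  (ρ ρ' k h H : ℝ), ContDiff ℝ 1 w → 0 < ρ → ρ < ρ' → 0 < h → 0 ≤ H →
  (∀ y ∈ ball x ρ', w y ≤ k + H) → (h ^ 2) ^ (m + 1) * ms w x ρ (k + h) ^ m ≤
    (C * (H ^ 2 / (ρ' - ρ) * ms w x ρ' k + H * √(ms w x ρ' k * eg w x ρ' k))) ^ (m + 1)

/-- **DGA**: from small measure to a pointwise bound -/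
def DGA : Prop := ∀ (m : ℕ) (γ : ℝ), 1 ≤ m → 0 < γ → ∃ ν > (0 : ℝ), ∀ (w : E (m + 1) → ℝ)
  (x : E (m + 1)) (r M R μ H : ℝ), ContDiff ℝ 1 w → Cac w x r γ M → 0 < R → R ≤ r →
  R / r ≤ H → H ≤ 2 * M → (∀ y ∈ ball x R, w y ≤ μ) → ms w x R (μ - H) ≤ ν * R ^ (m + 1) →
  ∀ y ∈ ball x (R / 2), w y ≤ μ - H / 2

/-- **POI**: the segment inequality -/
def POI : Prop := ∀ n : ℕ, ∃ C > (0 : ℝ), ∀ (g : E n → ℝ) (x : E n) (R : ℝ) (A B : Set (E n)),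
  Continuous g → (∀ y, 0 ≤ g y) → 0 < R → MeasurableSet A → MeasurableSet B → A ⊆ ball x R →
  B ⊆ ball x R → (∀ a ∈ A, ∀ b ∈ B, 1 ≤ ∫ t in (0 : ℝ)..1, g (a + t • (b - a))) →
  volume.real A * volume.real B ≤ C * R ^ n * ∫ y in ball x R, g y

/-- **DGB**: the superlevel sets shrink -/
def DGB : Prop := ∀ (n : ℕ) (γ θ ν : ℝ), 0 < γ → 0 < θ → 0 < ν → ∃ s : ℕ, ∀ (w : E n → ℝ)
  (x : E n) (r M R μ H : ℝ), ContDiff ℝ 1 w → Cac w x r γ M → 0 < R → 2 * R ≤ r →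
  R / r ≤ H / 2 ^ s → H ≤ 2 * M → (∀ y ∈ ball x (2 * R), w y ≤ μ) →
  θ * R ^ n ≤ volume.real (ball x R ∩ {y | w y ≤ μ - H}) → ms w x R (μ - H / 2 ^ s) ≤ ν * R ^ n

/-- **DGH**: the Hölder estimate -/
def DGH : Prop := ∀ (n : ℕ) (γ : ℝ), 2 ≤ n → 0 < γ → ∃ α > (0 : ℝ), α ≤ 1 ∧ ∃ K > (0 : ℝ),
  ∀ (w : E n → ℝ) (x : E n) (r M : ℝ), ContDiff ℝ 1 w → 0 < r → (∀ y ∈ ball x r, |w y| ≤ M) →
    Cac w x r γ M → Cac (fun y => -w y) x r γ M →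
    ∀ y ∈ ball x r, |w y - w x| ≤ K * (M + 1) * (‖y - x‖ / r) ^ α

/-- **CAC**: the energy inequality for subsolutions with natural growth -/
def CAC : Prop := ∀ (n : ℕ) (l Λ M : ℝ), 0 < l → 0 ≤ Λ → ∃ γ > (0 : ℝ), ∀ (w : E n → ℝ)
  (X : Fin n → E n → ℝ) (x : E n) (r : ℝ), ContDiff ℝ 1 w → (∀ i, ContDiff ℝ 1 (X i)) → 0 < r →
  (∀ y ∈ ball x r, l * ‖fderiv ℝ w y‖ ^ 2 - Λ / r ^ 2 ≤ ∑ i, X i y * pd i w y ∧
    (∀ i, |X i y| ≤ Λ * (‖fderiv ℝ w y‖ + 1 / r)) ∧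
    -(Λ * (‖fderiv ℝ w y‖ ^ 2 + 1 / r ^ 2)) ≤ ∑ i, pd i (X i) y) → Cac w x r γ M

/-- **HOL**: the Hölder estimate for equations in divergence form with natural growth -/
def HOL : Prop := ∀ (n : ℕ) (l Λ : ℝ), 2 ≤ n → 0 < l → 0 ≤ Λ → ∃ α > (0 : ℝ), α ≤ 1 ∧
  ∃ K > (0 : ℝ), ∀ (w : E n → ℝ) (X : Fin n → E n → ℝ) (x : E n) (r : ℝ), ContDiff ℝ 1 w →
  (∀ i, ContDiff ℝ 1 (X i)) → 0 < r →
  (∀ y ∈ ball x r, |w y| ≤ Λ ∧ l * ‖fderiv ℝ w y‖ ^ 2 - Λ / r ^ 2 ≤ ∑ i, X i y * pd i w y ∧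
    (∀ i, |X i y| ≤ Λ * (‖fderiv ℝ w y‖ + 1 / r)) ∧
    |∑ i, pd i (X i) y| ≤ Λ * (‖fderiv ℝ w y‖ ^ 2 + 1 / r ^ 2)) →
  ∀ y ∈ ball x r, |w y - w x| ≤ K * (‖y - x‖ / r) ^ α

/-- **TL**: from a Hölder estimate to a gradient estimate -/
def TL : Prop := ∀ (n : ℕ) (l Λ α e : ℝ), 0 < l → 0 ≤ Λ → 0 < α → α ≤ 1 → 0 < e →
  ∃ K > (0 : ℝ), ∀ (w : E n → ℝ) (a : Fin n → Fin n → E n → ℝ) (x : E n) (r S : ℝ),
  ContDiff ℝ 2 w → 0 < r → 0 ≤ S →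
  (∀ y ∈ ball x r, (∀ i j, a i j y = a j i y) ∧
    (∀ ξ : Fin n → ℝ, l * ∑ i, ξ i ^ 2 ≤ ∑ i, ∑ j, a i j y * ξ i * ξ j) ∧ (∀ i j, |a i j y| ≤ Λ) ∧
    |∑ i, ∑ j, a i j y * pd i (pd j w) y| ≤ Λ * (S ^ 2 + 1 / r ^ 2) ∧
    ∀ z ∈ ball x r, (∀ i j, |a i j y - a i j z| ≤ Λ * (‖y - z‖ / r) ^ α) ∧
      |w y - w z| ≤ Λ * (‖y - z‖ / r) ^ α) → ‖fderiv ℝ w x‖ ≤ e * S + K / r

/-- **BAD**: the points of large oscillation at the scale `δ` -/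
def BAD : Prop := ∀ (n : ℕ) (C h : ℝ), 0 < h → ∃ K > (0 : ℝ), ∀ (ψ : E n → ℝ) (δ : ℝ),
  ContDiff ℝ 1 ψ → 0 < δ → (∀ x, ‖fderiv ℝ ψ x‖ ≤ C / δ) →
  volume {x | ∃ y ∈ ball x (2 * δ), h ≤ |ψ y - ψ x|} ≤
    ENNReal.ofReal (K * δ ^ 2) * ∫⁻ y, ENNReal.ofReal (‖fderiv ℝ ψ y‖ ^ 2)

theorem ms_nonneg (w : E n → ℝ) (x : E n) (ρ k : ℝ) : 0 ≤ ms w x ρ k := measureReal_nonneg

theorem eg_nonneg (w : E n → ℝ) (x : E n) (ρ k : ℝ) : 0 ≤ eg w x ρ k :=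
  integral_nonneg fun _ => by positivity

theorem meas_lev {w : E n → ℝ} (hw : Continuous w) (x : E n) (ρ k : ℝ) :
    MeasurableSet (ball x ρ ∩ {y | k < w y}) :=
  measurableSet_ball.inter (isOpen_lt continuous_const hw).measurableSet

theorem fin_sub {s : Set (E n)} {x : E n} {ρ : ℝ} (h : s ⊆ ball x ρ) : volume s ≠ ⊤ :=
  ne_top_of_le_ne_top measure_ball_lt_top.ne (measure_mono h)

theorem ms_mono (w : E n → ℝ) (x : E n) {ρ ρ' k k' : ℝ} (h1 : ρ ≤ ρ') (h2 : k' ≤ k) :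
    ms w x ρ k ≤ ms w x ρ' k' :=
  measureReal_mono (inter_subset_inter (ball_subset_ball h1) fun _ hy => lt_of_le_of_lt h2 hy)
    (fin_sub inter_subset_left)

theorem int_on {g : E n → ℝ} (hg : Continuous g) {s : Set (E n)} {x : E n} {ρ : ℝ}
    (h : s ⊆ ball x ρ) : IntegrableOn g s :=
  (hg.continuousOn.integrableOn_compact (isCompact_closedBall x ρ)).mono_set
    (h.trans ball_subset_closedBall)

theorem hol_of (h1 : CAC) (h2 : DGH) : HOL := by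
  intro n l Λ hn hl hΛ
  obtain ⟨γ, γ0, hc⟩ := h1 n l Λ Λ hl hΛ
  obtain ⟨α, α0, α1, K, K0, hd⟩ := h2 n γ hn γ0
  refine ⟨α, α0, α1, K * (Λ + 1), by positivity, fun w X x r hw hX hr h => ?_⟩
  have dw : ∀ y, DifferentiableAt ℝ w y := fun y => hw.differentiable (by norm_num) y
  refine hd w x r Λ hw hr (fun y hy => (h y hy).1)
    (hc w X x r hw hX hr fun y hy => ⟨(h y hy).2.1, (h y hy).2.2.1, (abs_le.1 (h y hy).2.2.2).1⟩)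
    (hc _ (fun i y => -X i y) x r hw.neg (fun i => (hX i).neg) hr fun y hy => ?_)
  obtain ⟨-, a, b, c⟩ := h y hy
  have e : ‖fderiv ℝ (fun y => -w y) y‖ = ‖fderiv ℝ w y‖ := by
    rw [fderiv_fun_neg, norm_neg]
  rw [e]
  refine ⟨?_, fun i => by rw [abs_neg]; exact b i, ?_⟩
  · simpa only [pd_neg, neg_mul_neg] using a
  · simp only [pd_neg, Finset.sum_neg_distrib]
    linarith [(abs_le.1 c).2]

end Vale.Agent.P366Z.H
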