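import Vale.Agent.P366Y.H.Defs

/-!
# P366Y, block H: from small measure to a pointwise bound (row DGA)
-/

open MeasureTheory Metric Filter Topology Set
open scoped ContDiff ENNReal
open Vale.Agent.P366.Stmt

noncomputable section

namespace Vale.Agent.P366Z.H

namespace DgaH

theorem alg {m : ℕ} {C s H R t A A' B e : ℝ} (hC : 0 < C) (hs : 0 < s) (hH : 0 < H) (hR : 0 < R)
    (ht : 0 < t) (hB : 0 ≤ B) (hBA : B ≤ A) (he0 : 0 ≤ e) (he : e ≤ (s * H / (R * t)) ^ 2 * A)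
    (h : ((H * t / 4) ^ 2) ^ (m + 1) * A' ^ m ≤
      (C * (H ^ 2 / (R * t / 8) * B + H * √(B * e))) ^ (m + 1)) :
    A' ^ m ≤ (16 * C * (8 + s) * A / (R * t ^ 3)) ^ (m + 1) := by
  have hA : 0 ≤ A := hB.trans hBA
  have k1 : √(B * e) ≤ s * H / (R * t) * A := Real.sqrt_le_iff.2 ⟨by positivity, by
    refine (mul_le_mul hBA he he0 hA).trans_eq ?_
    ring⟩
  have k2 : C * (H ^ 2 / (R * t / 8) * B + H * √(B * e)) ≤
      (H * t / 4) ^ 2 * (16 * C * (8 + s) * A / (R * t ^ 3)) := by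
    refine (mul_le_mul_of_nonneg_left (add_le_add
      (mul_le_mul_of_nonneg_left hBA (by positivity)) (mul_le_mul_of_nonneg_left k1 hH.le))
      hC.le).trans_eq ?_
    field_simp
    ring
  have k3 := h.trans (pow_le_pow_left₀ (by positivity) k2 (m + 1))
  rw [mul_pow] at k3
  exact le_of_mul_le_mul_left k3 (by positivity)

theorem num {m j : ℕ} {C R : ℝ} (hC : 0 < C) (hR : 0 < R) :
    (C * ((1 / 8 ^ (m + 1)) ^ m / C ^ (m + 1) * (1 / 8 ^ (m + 1)) ^ j * R ^ (m + 1)) /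
      (R * ((1 / 2) ^ j) ^ 3)) ^ (m + 1) =
    ((1 / 8 ^ (m + 1)) ^ m / C ^ (m + 1) * (1 / 8 ^ (m + 1)) ^ (j + 1) * R ^ (m + 1)) ^ m := by
  have e : (((1 : ℝ) / 2) ^ j) ^ 3 = (1 / 8) ^ j := by
    rw [← pow_mul, mul_comm, pow_mul]
    norm_num
  have e' : (((1 : ℝ) / 8) ^ j) ^ (m + 1) = (1 / 8 ^ (m + 1)) ^ j := by
    rw [← pow_mul, mul_comm, pow_mul, one_div_pow]
  rw [e, div_pow _ (R * _), mul_pow R, e', mul_pow C]
  have q0 : (0 : ℝ) < 1 / 8 ^ (m + 1) := by positivity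
  have c0 : 0 < C ^ (m + 1) := by positivity
  generalize (1 : ℝ) / 8 ^ (m + 1) = q at q0
  generalize C ^ (m + 1) = c at c0
  rw [pow_succ (_ * _ * R ^ (m + 1)), pow_succ q j, ← mul_assoc _ (q ^ j) q, mul_right_comm _ q,
    mul_pow _ q]
  field_simp

end DgaH

open DgaH

/-- **row DGA** -/
theorem dga_of (hS : SOB) : DGA := by
  intro m γ hm hγ
  obtain ⟨C, C0, hC⟩ := hS m hm
  have s0 : 0 < √(65 * γ) := by positivity
  have c0 : 0 < 16 * C * (8 + √(65 * γ)) := by positivity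
  refine ⟨(1 / 8 ^ (m + 1)) ^ m / (16 * C * (8 + √(65 * γ))) ^ (m + 1), by positivity,
    fun w x r M R μ H hw hc hR hr hH hM hμ h0 => ?_⟩
  have r0 : 0 < r := hR.trans_le hr
  have H0 : 0 < H := (div_pos hR r0).trans_le hH
  have step : ∀ t : ℝ, 0 < t → t ≤ 1 → ms w x (R / 2 * (1 + t / 2)) (μ - H / 2 * (1 + t / 2)) ^ m ≤
      (16 * C * (8 + √(65 * γ)) * ms w x (R / 2 * (1 + t)) (μ - H / 2 * (1 + t)) /
        (R * t ^ 3)) ^ (m + 1) := fun t t0 t1 => by
    have a0 : 0 < R * t := by positivity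
    have a1 : R * t ≤ R := mul_le_of_le_one_right hR.le t1
    have a2 : H * t ≤ H := mul_le_of_le_one_right H0.le t1
    have b : ∀ y ∈ ball x (R / 2 * (1 + t)), w y ≤ μ - H / 2 * (1 + t) + H := fun y hy => by
      have := hμ y (ball_subset_ball (by linarith) hy)
      linarith
    have k1 := hC w x (R / 2 * (1 + t / 2)) (R / 2 * (1 + 3 * t / 4)) (μ - H / 2 * (1 + t))
      (H * t / 4) H hw (by positivity) (by linarith) (by positivity) H0.le
      fun y hy => b y (ball_subset_ball (by linarith) hy)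
    have k2 := hc (R / 2 * (1 + 3 * t / 4)) (R / 2 * (1 + t)) (μ - H / 2 * (1 + t)) H
      (by positivity) (by linarith) (by linarith) H0.le hM b
    rw [show μ - H / 2 * (1 + t) + H * t / 4 = μ - H / 2 * (1 + t / 2) by ring,
      show R / 2 * (1 + 3 * t / 4) - R / 2 * (1 + t / 2) = R * t / 8 by ring] at k1
    rw [show R / 2 * (1 + t) - R / 2 * (1 + 3 * t / 4) = R * t / 8 by ring] at k2
    refine alg C0 s0 H0 hR t0 (ms_nonneg _ _ _ _) (ms_mono w x (by linarith) le_rfl)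
      (eg_nonneg _ _ _ _) (k2.trans (mul_le_mul_of_nonneg_right ?_ (ms_nonneg _ _ _ _))) k1
    have k3 : 1 / r ≤ H / (R * t) := by
      rw [div_le_div_iff₀ r0 a0]
      rw [div_le_iff₀ r0] at hH
      linarith
    have k4 : 1 / r ^ 2 ≤ (H / (R * t)) ^ 2 := by
      rw [← one_div_pow]
      exact pow_le_pow_left₀ (by positivity) k3 2
    rw [show H ^ 2 / (R * t / 8) ^ 2 = 64 * (H / (R * t)) ^ 2 by field_simp; norm_num,
      mul_div_assoc, mul_pow (√_), Real.sq_sqrt (by positivity)]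
    nlinarith
  have key : ∀ j : ℕ, ms w x (R / 2 * (1 + (1 / 2) ^ j)) (μ - H / 2 * (1 + (1 / 2) ^ j)) ≤
      (1 / 8 ^ (m + 1)) ^ m / (16 * C * (8 + √(65 * γ))) ^ (m + 1) * (1 / 8 ^ (m + 1)) ^ j *
        R ^ (m + 1) := fun j => by
    induction j with
    | zero =>
      rw [pow_zero, pow_zero, mul_one, show R / 2 * (1 + 1) = R by ring,
        show H / 2 * (1 + 1) = H by ring]
      exact h0
    | succ j ih =>
      refine le_of_pow_le_pow_left₀ (n := m) (by omega) (by positivity) ?_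
      rw [← num c0 hR, pow_succ ((1 : ℝ) / 2) j, mul_one_div]
      refine (step _ (by positivity) (pow_le_one₀ (by norm_num) (by norm_num))).trans
        (pow_le_pow_left₀ (div_nonneg (mul_nonneg c0.le (ms_nonneg _ _ _ _)) (by positivity))
          (div_le_div_of_nonneg_right (mul_le_mul_of_nonneg_left ih c0.le) (by positivity)) _)
  have lim : Tendsto (fun j : ℕ => (1 / 8 ^ (m + 1) : ℝ) ^ m /
      (16 * C * (8 + √(65 * γ))) ^ (m + 1) * (1 / 8 ^ (m + 1)) ^ j * R ^ (m + 1)) atTop (𝓝 0) := by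
    have := ((tendsto_pow_atTop_nhds_zero_of_lt_one (r := (1 / 8 ^ (m + 1) : ℝ)) (by positivity)
      ((div_lt_one (by positivity)).2 (one_lt_pow₀ (by norm_num) m.succ_ne_zero))).const_mul
      ((1 / 8 ^ (m + 1) : ℝ) ^ m / (16 * C * (8 + √(65 * γ))) ^ (m + 1))).mul_const (R ^ (m + 1))
    rwa [mul_zero, zero_mul] at this
  have z : ms w x (R / 2) (μ - H / 2) ≤ 0 := ge_of_tendsto' lim fun j => by
    have p : (0 : ℝ) < (1 / 2) ^ j := by positivity
    exact (ms_mono w x (by nlinarith) (by nlinarith)).trans (key j)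
  intro y hy
  by_contra c
  have o : IsOpen (ball x (R / 2) ∩ {y | μ - H / 2 < w y}) :=
    isOpen_ball.inter (isOpen_lt continuous_const hw.continuous)
  exact z.not_gt (ENNReal.toReal_pos (o.measure_pos volume ⟨y, hy, not_le.1 c⟩).ne'
    (fin_sub inter_subset_left))

end Vale.Agent.P366Z.H
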