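import Vale.Agent.P366Y.H.Defs
import Vale.Agent.P366Z.DensB

/-!
# P366Y, block H: the superlevel sets shrink
-/

open MeasureTheory Metric Filter Topology Set
open scoped ContDiff ENNReal
open Vale.Agent.P366.Stmt

noncomputable section

namespace Vale.Agent.P366Z.H

namespace Dgb

variable {n : ℕ}

lemma seg {v : E n → ℝ} (hv : ContDiff ℝ 1 v) {a b : E n} {D : ℝ} (h : ‖b - a‖ ≤ D) :
    v a - v b ≤ ∫ t in (0 : ℝ)..1, D * ‖fderiv ℝ v (a + t • (b - a))‖ := by
  have hc : Continuous fun t : ℝ => fderiv ℝ v (a + t • (b - a)) :=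
    (hv.continuous_fderiv one_ne_zero).comp (by fun_prop)
  have hd : ∀ t : ℝ, HasDerivAt (fun t : ℝ => -v (a + t • (b - a)))
      (-(fderiv ℝ v (a + t • (b - a)) (b - a))) t := fun t => by
    have h1 : HasDerivAt (fun t : ℝ => a + t • (b - a)) (b - a) t := by
      simpa using ((hasDerivAt_id t).smul_const (b - a)).const_add a
    exact (((hv.differentiable one_ne_zero _).hasFDerivAt).comp_hasDerivAt t h1).neg
  have hi : IntervalIntegrable (fun t : ℝ => -(fderiv ℝ v (a + t • (b - a)) (b - a))) volume 0 1 :=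
    (hc.clm_apply continuous_const).neg.intervalIntegrable _ _
  have h2 := intervalIntegral.integral_eq_sub_of_hasDerivAt (fun t _ => hd t) hi
  have h3 : v a - v b = -v (a + (1 : ℝ) • (b - a)) - -v (a + (0 : ℝ) • (b - a)) := by
    rw [one_smul, zero_smul, add_zero, add_sub_cancel]
    ring
  rw [h3, ← h2]
  refine intervalIntegral.integral_mono_on zero_le_one hi
    ((continuous_const.mul hc.norm).intervalIntegrable _ _) fun t _ => ?_
  refine (neg_le_abs _).trans (((fderiv ℝ v _).le_opNorm (b - a)).trans ?_)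
  rw [mul_comm]
  exact mul_le_mul_of_nonneg_right h (norm_nonneg _)

lemma tele {a : ℕ → ℝ} {θ p q : ℝ} (hθ : 0 ≤ θ) (hm : ∀ j, a (j + 1) ≤ a j) :
    ∀ s : ℕ, (∀ j < s, θ * a (j + 1) ≤ p + q * (a j - a (j + 1))) →
      s * (θ * a s) ≤ s * p + q * (a 0 - a s)
  | 0, _ => by simp
  | s + 1, h => by
    have h1 := tele hθ hm s fun j hj => h j (by omega)
    have h2 := h s (by omega)
    have h3 := mul_le_mul_of_nonneg_left (mul_le_mul_of_nonneg_left (hm s) hθ)
      (Nat.cast_nonneg (α := ℝ) s)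
    push_cast
    linarith

lemma vol_ball (x : E n) {ρ : ℝ} (hρ : 0 < ρ) :
    volume.real (ball x ρ) = ρ ^ n * volume.real (ball (0 : E n) 1) := by
  rw [Measure.real, Measure.addHaar_ball_of_pos _ x hρ, finrank_euclideanSpace_fin,
    ENNReal.toReal_mul, ENNReal.toReal_ofReal (by positivity)]
  rfl

lemma ms_le (w : E n → ℝ) (x : E n) {ρ : ℝ} (hρ : 0 < ρ) (k : ℝ) :
    ms w x ρ k ≤ ρ ^ n * volume.real (ball (0 : E n) 1) := by
  rw [← vol_ball x hρ]
  exact measureReal_mono inter_subset_left measure_ball_lt_top.ne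

/-- one step of the iteration -/
lemma step {C L : ℝ} (hC : 0 < C) (hL0 : 0 < L) (hL : ∀ s, |deriv Real.smoothTransition s| ≤ L)
    (hP : ∀ (g : E n → ℝ) (x : E n) (R : ℝ) (A B : Set (E n)),
      Continuous g → (∀ y, 0 ≤ g y) → 0 < R → MeasurableSet A → MeasurableSet B → A ⊆ ball x R →
      B ⊆ ball x R → (∀ a ∈ A, ∀ b ∈ B, 1 ≤ ∫ t in (0 : ℝ)..1, g (a + t • (b - a))) →
      volume.real A * volume.real B ≤ C * R ^ n * ∫ y in ball x R, g y)
    {w : E n → ℝ} (hw : ContDiff ℝ 1 w) (x : E n) {R k k₀ h ε : ℝ} (hR : 0 < R) (hh : 0 < h)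
    (hε : 0 < ε) (hk : k₀ ≤ k) :
    ms w x R (k + h) * volume.real (ball x R ∩ {y | w y ≤ k₀}) ≤
      C * R ^ n * (L * ε * R ^ 2 / h ^ 2 * eg w x R k +
        L / ε * (ms w x R k - ms w x R (k + h))) := by
  have st1 : ContDiff ℝ 1 Real.smoothTransition := Real.smoothTransition.contDiff (n := 1)
  obtain ⟨v, hv⟩ : ∃ v : E n → ℝ, v = fun y => Real.smoothTransition ((w y - k) / h) := ⟨_, rfl⟩
  have v1 : ContDiff ℝ 1 v := hv ▸ st1.comp ((hw.sub contDiff_const).div_const h)
  have v0 : ∀ y, w y ≤ k → v y = 0 := fun y hy => hv ▸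
    Real.smoothTransition.zero_of_nonpos (div_nonpos_of_nonpos_of_nonneg (by linarith) hh.le)
  have v2 : ∀ y, k + h ≤ w y → v y = 1 := fun y hy => hv ▸
    Real.smoothTransition.one_of_one_le ((one_le_div hh).2 (by linarith))
  have vb : ∀ y, 0 ≤ v y ∧ v y ≤ 1 := fun y => hv ▸
    ⟨Real.smoothTransition.nonneg _, Real.smoothTransition.le_one _⟩
  have vd : ∀ y, ‖fderiv ℝ v y‖ ≤ L * (‖fderiv ℝ w y‖ / h) := fun y => by
    have h1 : HasFDerivAt (fun y => (w y - k) / h) (h⁻¹ • fderiv ℝ w y) y := by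
      simpa only [div_eq_inv_mul] using
        (((hw.differentiable one_ne_zero y).hasFDerivAt).sub_const k).const_mul h⁻¹
    have h2 := (st1.differentiable one_ne_zero ((w y - k) / h)).hasDerivAt.comp_hasFDerivAt y h1
    have h3 : fderiv ℝ v y = deriv Real.smoothTransition ((w y - k) / h) • h⁻¹ • fderiv ℝ w y := by
      rw [hv]; exact h2.fderiv
    rw [h3, norm_smul, norm_smul, Real.norm_eq_abs, Real.norm_eq_abs, abs_of_pos (inv_pos.2 hh),
      div_eq_inv_mul ‖fderiv ℝ w y‖]
    exact mul_le_mul_of_nonneg_right (hL _) (by positivity)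
  have gc : Continuous fun y => 2 * R * ‖fderiv ℝ v y‖ :=
    continuous_const.mul (v1.continuous_fderiv one_ne_zero).norm
  have wc : Continuous fun y => ‖fderiv ℝ w y‖ ^ 2 := (hw.continuous_fderiv one_ne_zero).norm.pow 2
  have m1 := meas_lev hw.continuous x R k
  have m2 := meas_lev hw.continuous x R (k + h)
  have h1 := hP (fun y => 2 * R * ‖fderiv ℝ v y‖) x R (ball x R ∩ {y | k + h < w y})
    (ball x R ∩ {y | w y ≤ k₀}) gc (fun y => by positivity) hR m2
    (measurableSet_ball.inter (isClosed_le hw.continuous continuous_const).measurableSet)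
    inter_subset_left inter_subset_left fun a ha b hb => by
      have e1 : ‖b - a‖ ≤ 2 * R := by
        rw [← dist_eq_norm]
        linarith [dist_triangle_right b a x, mem_ball.1 ha.1, mem_ball.1 hb.1]
      have e2 := seg v1 e1
      rwa [v2 a (le_of_lt ha.2), v0 b (le_trans hb.2 hk), sub_zero] at e2
  refine h1.trans (mul_le_mul_of_nonneg_left ?_ (by positivity))
  obtain ⟨D, hD⟩ : ∃ D, D = (ball x R ∩ {y | k < w y}) \ (ball x R ∩ {y | k + h < w y}) := ⟨_, rfl⟩
  have D1 : D ⊆ ball x R ∩ {y | k < w y} := hD ▸ sdiff_subset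
  have D2 : D ⊆ ball x R := D1.trans inter_subset_left
  have mD : MeasurableSet D := hD ▸ m1.diff m2
  have vD : volume.real D = ms w x R k - ms w x R (k + h) := by
    rw [hD]
    exact measureReal_sdiff (inter_subset_inter_right _ fun y (hy : k + h < w y) =>
      show k < w y by linarith) m2 (fin_sub inter_subset_left)
  rw [setIntegral_eq_of_subset_of_forall_sdiff_eq_zero measurableSet_ball D2 fun y hy => ?_]
  · have i1 := (int_on wc D2).const_mul (L * ε * R ^ 2 / h ^ 2)
    have i2 := int_on (g := fun _ => L / ε) continuous_const D2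
    refine (setIntegral_mono_on (int_on gc D2) (i1.add i2) mD fun y _ => ?_).trans ?_
    · have e1 := mul_le_mul_of_nonneg_left (vd y) (by positivity : 0 ≤ 2 * R)
      have e2 : L * ε * R ^ 2 / h ^ 2 * ‖fderiv ℝ w y‖ ^ 2 + L / ε -
          2 * R * (L * (‖fderiv ℝ w y‖ / h)) = L / ε * (ε * R * ‖fderiv ℝ w y‖ / h - 1) ^ 2 := by
        field_simp
        ring
      have e3 : 0 ≤ L / ε * (ε * R * ‖fderiv ℝ w y‖ / h - 1) ^ 2 := by positivity
      show _ ≤ L * ε * R ^ 2 / h ^ 2 * ‖fderiv ℝ w y‖ ^ 2 + L / ε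
      linarith
    · simp only [Pi.add_apply]
      rw [integral_add i1 i2, integral_const_mul, setIntegral_const, vD, smul_eq_mul,
        mul_comm _ (L / ε)]
      refine add_le_add (mul_le_mul_of_nonneg_left ?_ (by positivity)) le_rfl
      exact setIntegral_mono_set (int_on wc inter_subset_left)
        (Eventually.of_forall fun y => by positivity) D1.eventuallyLE
  · have e : fderiv ℝ v y = 0 := by
      by_cases h2 : k < w y
      · have h3 : k + h < w y := by
          by_contra h3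
          exact hy.2 (hD ▸ ⟨⟨hy.1, h2⟩, fun h4 => h3 h4.2⟩)
        exact IsLocalMax.fderiv_eq_zero
          (Eventually.of_forall fun z => (vb z).2.trans (v2 y h3.le).ge)
      · exact IsLocalMin.fderiv_eq_zero
          (Eventually.of_forall fun z => (v0 y (not_lt.1 h2)).le.trans (vb z).1)
    rw [e, norm_zero, mul_zero]

end Dgb

open Dgb in
/-- **DGB** -/
theorem dgb_of (hP : POI) : DGB := by
  intro n γ θ ν hγ hθ hν
  obtain ⟨C, hC, hP⟩ := hP n
  obtain ⟨L, hL0, hL⟩ := DensH.deriv_bd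
  obtain ⟨V, hV⟩ : ∃ V, V = volume.real (ball (0 : E n) 1) := ⟨_, rfl⟩
  have V0 : 0 ≤ V := hV ▸ measureReal_nonneg
  obtain ⟨ε, hε, hεl⟩ := exists_pos_mul_lt (a := θ * ν / 2) (by positivity)
    (C * L * (8 * γ * 2 ^ n * V))
  obtain ⟨s, hs⟩ := exists_nat_gt (C * (L / ε) * V / (θ * ν / 2))
  have s0 : (0 : ℝ) < s := lt_of_le_of_lt (by positivity) hs
  rw [div_lt_iff₀ (by positivity)] at hs
  refine ⟨s, fun w x r M R μ H hw hc hR hr hH hM hμ hB => ?_⟩
  have r0 : 0 < r := by linarith
  have H0 : 0 < H := by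
    have := (div_pos hR r0).trans_le hH
    exact (div_pos_iff_of_pos_right (by positivity)).1 this
  have Rn : 0 < R ^ n := pow_pos hR n
  have hk : ∀ j : ℕ, μ - H / 2 ^ (j + 1) = μ - H / 2 ^ j + H / 2 ^ (j + 1) := fun j => by
    rw [pow_succ]
    field_simp
    ring
  have h1 := tele (a := fun j => ms w x R (μ - H / 2 ^ j)) (θ := θ)
    (p := C * L * (8 * γ * 2 ^ n * V) * ε * R ^ n) (q := C * (L / ε)) hθ.le
    (fun j => ms_mono w x le_rfl (by rw [hk j]; exact le_add_of_nonneg_right (by positivity))) s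
    fun j hj => by
      have e0 : H / 2 ^ j ≤ H := div_le_self H0.le (one_le_pow₀ one_le_two)
      have e1 := step hC hL0 hL hP hw x (k := μ - H / 2 ^ j) (k₀ := μ - H) (h := H / 2 ^ (j + 1))
        hR (by positivity) hε (by linarith)
      have e2 := hc R (2 * R) (μ - H / 2 ^ j) (H / 2 ^ j) hR (by linarith) hr (by positivity)
        (e0.trans hM) fun y hy => (hμ y hy).trans (by linarith)
      have e3 : 1 / r ≤ H / 2 ^ j / R := by
        rw [le_div_iff₀ hR, one_div_mul_eq_div]
        exact hH.trans (div_le_div_of_nonneg_left H0.le (by positivity)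
          (pow_le_pow_right₀ one_le_two hj.le))
      have e4 : 1 / r ^ 2 ≤ (H / 2 ^ j) ^ 2 / R ^ 2 := by
        have := pow_le_pow_left₀ (by positivity) e3 2
        rwa [div_pow, one_pow, div_pow] at this
      have e5 := ms_le w x (ρ := 2 * R) (by positivity) (μ - H / 2 ^ j)
      rw [← hV] at e5
      have e6 : eg w x R (μ - H / 2 ^ j) ≤
          γ * (2 * ((H / 2 ^ j) ^ 2 / R ^ 2)) * ((2 * R) ^ n * V) := by
        refine e2.trans (mul_le_mul (mul_le_mul_of_nonneg_left ?_ hγ.le) e5 (ms_nonneg _ _ _ _)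
          (by positivity))
        rw [show 2 * R - R = R by ring]
        linarith
      have e7 : L * ε * R ^ 2 / (H / 2 ^ (j + 1)) ^ 2 * eg w x R (μ - H / 2 ^ j) ≤
          L * (8 * γ * 2 ^ n * V) * ε * R ^ n := by
        refine (mul_le_mul_of_nonneg_left e6 (by positivity)).trans (le_of_eq ?_)
        rw [pow_succ (2 : ℝ) j, mul_pow 2 R]
        field_simp
        ring
      rw [← hk j] at e1
      have e8 := (mul_le_mul_of_nonneg_left hB (ms_nonneg w x R (μ - H / 2 ^ (j + 1)))).trans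
        (e1.trans (mul_le_mul_of_nonneg_left (add_le_add e7 le_rfl) (by positivity)))
      refine le_of_mul_le_mul_right ?_ Rn
      linarith
  have h2 := ms_le w x hR (μ - H / 2 ^ 0)
  rw [← hV] at h2
  have h3 := ms_nonneg w x R (μ - H / 2 ^ s)
  have h4 : C * (L / ε) * (ms w x R (μ - H / 2 ^ 0) - ms w x R (μ - H / 2 ^ s)) ≤
      C * (L / ε) * (R ^ n * V) := mul_le_mul_of_nonneg_left (by linarith) (by positivity)
  have h5 := mul_le_mul_of_nonneg_right hs.le Rn.le
  have h6 := mul_le_mul_of_nonneg_left (mul_le_mul_of_nonneg_right hεl.le Rn.le) s0.le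
  refine le_of_mul_le_mul_left ?_ (mul_pos s0 hθ)
  linarith

end Vale.Agent.P366Z.H
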