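import Vale.Agent.P366Y.H.Defs
import Mathlib.Analysis.SpecialFunctions.Log.Base

/-!
# P366Y, block H: the decay of the oscillation
-/

open MeasureTheory Metric Filter Topology Set
open scoped ContDiff ENNReal
open Vale.Agent.P366.Stmt

noncomputable section

namespace Vale.Agent.P366Z.H

namespace Dgh

variable {n : ℕ}

/-- the oscillation on the ball is at most `c` -/
def P (w : E n → ℝ) (x : E n) (R c : ℝ) : Prop := ∀ y ∈ ball x R, ∀ z ∈ ball x R, w y - w z ≤ c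

theorem P.mono {w : E n → ℝ} {x : E n} {R R' c c' : ℝ} (h : P w x R c) (h1 : R' ≤ R)
    (h2 : c ≤ c') : P w x R' c' := fun y hy z hz =>
  (h y (ball_subset_ball h1 hy) z (ball_subset_ball h1 hz)).trans h2

/-- the gain on one side -/
def Half (n : ℕ) (γ θ : ℝ) (s : ℕ) : Prop := ∀ (w : E n → ℝ) (x : E n) (r M R μ H : ℝ),
  ContDiff ℝ 1 w → Cac w x r γ M → 0 < R → 2 * R ≤ r → R / r ≤ H / 2 ^ s → H ≤ 2 * M →
  (∀ y ∈ ball x (2 * R), w y ≤ μ) → θ * R ^ n ≤ volume.real (ball x R ∩ {y | w y ≤ μ - H}) →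
  ∀ y ∈ ball x (R / 2), w y ≤ μ - H / 2 ^ s / 2

theorem half (hA : DGA) (hB : DGB) {m : ℕ} {γ θ : ℝ} (hm : 1 ≤ m) (hγ : 0 < γ) (hθ : 0 < θ) :
    ∃ s, Half (m + 1) γ θ s := by
  obtain ⟨ν, ν0, h1⟩ := hA m γ hm hγ
  obtain ⟨s, h2⟩ := hB (m + 1) γ θ ν hγ hθ ν0
  refine ⟨s, fun w x r M R μ H hw hc R0 hr h3 h4 h5 h6 => ?_⟩
  have s1 : (1 : ℝ) ≤ 2 ^ s := one_le_pow₀ one_le_two
  have H0 : 0 ≤ H := by
    have : 0 < H / 2 ^ s := lt_of_lt_of_le (div_pos R0 (by linarith)) h3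
    exact ((div_pos_iff_of_pos_right (by positivity)).1 this).le
  exact h1 w x r M R μ _ hw hc R0 (by linarith) h3 ((div_le_self H0 s1).trans h4)
    (fun y hy => h5 y (ball_subset_ball (by linarith) hy)) (h2 w x r M R μ H hw hc R0 hr h3 h4 h5 h6)

theorem step {γ θ : ℝ} {s : ℕ} (h : Half n γ θ s)
    (hθ : ∀ (x : E n) (R : ℝ), 0 ≤ R → volume.real (ball x R) = 2 * (θ * R ^ n))
    {w : E n → ℝ} {x : E n} {r M R c : ℝ} (hw : ContDiff ℝ 1 w) (h1 : Cac w x r γ M)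
    (h2 : Cac (fun y => -w y) x r γ M) (R0 : 0 < R) (hr : 2 * R ≤ r) (hc : c / 2 ≤ 2 * M)
    (h3 : R / r ≤ c / 2 / 2 ^ s) (hP : P w x (2 * R) c) :
    P w x (R / 2) ((1 - 1 / 2 ^ s / 4) * c) := by
  have hx : x ∈ ball x (2 * R) := mem_ball_self (by positivity)
  have hb : BddAbove (w '' ball x (2 * R)) := ⟨c + w x, by
    rintro _ ⟨y, hy, rfl⟩
    exact sub_le_iff_le_add.1 (hP y hy x hx)⟩
  have u1 : ∀ y ∈ ball x (2 * R), w y ≤ sSup (w '' ball x (2 * R)) := fun y hy =>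
    le_csSup hb ⟨y, hy, rfl⟩
  have u2 : ∀ y ∈ ball x (2 * R), -w y ≤ c - sSup (w '' ball x (2 * R)) := fun y hy => by
    have : sSup (w '' ball x (2 * R)) ≤ c + w y := csSup_le ⟨_, x, hx, rfl⟩ (by
      rintro _ ⟨z, hz, rfl⟩
      exact sub_le_iff_le_add.1 (hP z hz y hy))
    linarith
  generalize sSup (w '' ball x (2 * R)) = μ at u1 u2
  have h4 : 2 * (θ * R ^ n) ≤ volume.real (ball x R ∩ {y | w y ≤ μ - c / 2}) +
      volume.real (ball x R ∩ {y | -w y ≤ c - μ - c / 2}) := by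
    rw [← hθ x R R0.le]
    refine le_trans (measureReal_mono (fun y hy => ?_)
      (fin_sub (union_subset inter_subset_left inter_subset_left))) (measureReal_union_le _ _)
    rcases le_total (w y) (μ - c / 2) with k | k
    · exact Or.inl ⟨hy, k⟩
    · exact Or.inr ⟨hy, show -w y ≤ c - μ - c / 2 by linarith⟩
  have e : (1 - 1 / 2 ^ s / 4) * c = c - c / 2 / 2 ^ s / 2 := by ring
  have sub : ball x (R / 2) ⊆ ball x (2 * R) := ball_subset_ball (by linarith)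
  intro y hy z hz
  rw [e]
  rcases le_total (θ * R ^ n) (volume.real (ball x R ∩ {y | w y ≤ μ - c / 2})) with k | k
  · linarith [h w x r M R μ _ hw h1 R0 hr h3 hc u1 k y hy, u2 z (sub hz)]
  · linarith [h _ x r M R _ _ hw.neg h2 R0 hr h3 hc u2 (by linarith) z hz, u1 y (sub hy)]

theorem near {q t : ℝ} (ht : t < 1) : ∀ N : ℕ, q ^ N ≤ t → ∃ j : ℕ, q ^ (j + 1) ≤ t ∧ t < q ^ j
  | 0, h => absurd ht (not_lt.2 ((pow_zero q).symm.trans_le h))
  | N + 1, h => (lt_or_ge t (q ^ N)).elim (fun k => ⟨N, h, k⟩) (near ht N)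

end Dgh

open Dgh in
theorem dgh_of (hA : DGA) (hB : DGB) : DGH := by
  intro n γ hn hγ
  obtain ⟨m, rfl⟩ : ∃ m, n = m + 1 := ⟨n - 1, by omega⟩
  have o := omega_pos (n := m + 1) (Nat.succ_pos m)
  obtain ⟨s, hs⟩ := half hA hB (θ := omega (m + 1) / (m + 1 : ℕ) / 2) (by omega : 1 ≤ m) hγ
    (by positivity)
  have hθ : ∀ (x : E (m + 1)) (R : ℝ), 0 ≤ R →
      volume.real (ball x R) = 2 * (omega (m + 1) / (m + 1 : ℕ) / 2 * R ^ (m + 1)) :=
    fun x R hR => (real_ball (n := m + 1) (Nat.succ_pos m) x hR).trans (by ring)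
  have s1 : (1 : ℝ) ≤ 2 ^ s := one_le_pow₀ one_le_two
  have l0 : (0 : ℝ) < 1 / 2 ^ s := by positivity
  have l1 : (1 : ℝ) / 2 ^ s ≤ 1 := div_le_one_of_le₀ s1 (by positivity)
  have st := @step _ _ _ _ hs hθ
  generalize hl : (1 - 1 / 2 ^ s / 4 : ℝ) = lam at st
  have l2 : 3 / 4 ≤ lam := by linarith
  have l3 : lam < 1 := by linarith
  have l4 : 0 < lam := by linarith
  have q0 : (0 : ℝ) < 1 / 4 := by norm_num
  have q1 : (1 : ℝ) / 4 < 1 := by norm_num
  have α0 := Real.logb_pos_of_base_lt_one q0 q1 l4 l3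
  refine ⟨_, α0, (Real.logb_le_iff_le_rpow_of_base_lt_one q0 q1 l4).2 (by
    rw [Real.rpow_one]; linarith), 4 * (2 * 2 ^ s), by positivity,
    fun w x r M hw r0 hM h1 h2 y hy => ?_⟩
  have M0 : 0 ≤ M := (abs_nonneg _).trans (hM x (mem_ball_self r0))
  have p0 : P w x r (2 * M) := fun y hy z hz => by
    linarith [(abs_le.1 (hM y hy)).2, (abs_le.1 (hM z hz)).1]
  have ind : ∀ j : ℕ, P w x (r * (1 / 4) ^ j) (lam ^ j * (2 * 2 ^ s * (M + 1))) := by
    intro j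
    induction j with
    | zero => exact p0.mono (by simp) (by nlinarith)
    | succ j ih =>
      have a0 : (0 : ℝ) < (1 / 4) ^ j := by positivity
      have a1 : (1 / 4 : ℝ) ^ j ≤ 1 := pow_le_one₀ q0.le q1.le
      have a2 : (1 / 4 : ℝ) ^ j ≤ lam ^ j := pow_le_pow_left₀ q0.le (by linarith) j
      have a3 : r * (1 / 4) ^ j ≤ r := mul_le_of_le_one_right r0.le a1
      have e1 : 2 * (r * (1 / 4) ^ j / 2) = r * (1 / 4) ^ j := by ring
      have e2 : r * (1 / 4) ^ (j + 1) = r * (1 / 4) ^ j / 2 / 2 := by ring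
      have p1 : P w x (r * (1 / 4) ^ j) (min (lam ^ j * (2 * 2 ^ s * (M + 1))) (2 * M)) :=
        fun y hy z hz => le_min (ih y hy z hz) (p0.mono a3 le_rfl y hy z hz)
      have b1 := min_le_left (lam ^ j * (2 * 2 ^ s * (M + 1))) (2 * M)
      have b2 := min_le_right (lam ^ j * (2 * 2 ^ s * (M + 1))) (2 * M)
      generalize min (lam ^ j * (2 * 2 ^ s * (M + 1))) (2 * M) = c at p1 b1 b2
      rcases le_total (r * (1 / 4) ^ j / 2 / r) (c / 2 / 2 ^ s) with k | k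
      · refine (st hw h1 h2 (by positivity) (e1.trans_le a3) (by linarith) k
          (e1.symm ▸ p1)).mono e2.le ?_
        rw [pow_succ', mul_assoc]
        exact mul_le_mul_of_nonneg_left b1 l4.le
      · refine p1.mono (by rw [e2]; linarith [mul_pos r0 a0]) ?_
        rw [show r * (1 / 4) ^ j / 2 / r = (1 / 4) ^ j / 2 by field_simp,
          div_le_iff₀ (by positivity)] at k
        have b3 := mul_le_mul_of_nonneg_right a2 (show (0 : ℝ) ≤ 2 ^ s by positivity)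
        have b4 : 0 ≤ lam ^ j * 2 ^ s := by positivity
        have b5 := mul_le_mul_of_nonneg_left l2 b4
        have b6 : 0 ≤ lam ^ j * 2 ^ s * lam * M := by positivity
        rw [pow_succ]
        linarith
  rcases eq_or_ne y x with rfl | hx
  · rw [sub_self, abs_zero]
    positivity
  have t0 : 0 < ‖y - x‖ / r := div_pos (norm_pos_iff.2 (sub_ne_zero.2 hx)) r0
  have t1 : ‖y - x‖ / r < 1 := (div_lt_one r0).2 (mem_ball_iff_norm.1 hy)
  obtain ⟨N, hN⟩ := exists_pow_lt_of_lt_one t0 q1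
  obtain ⟨j, j1, j2⟩ := near t1 N hN.le
  have y1 : y ∈ ball x (r * (1 / 4) ^ j) := mem_ball_iff_norm.2 ((div_lt_iff₀' r0).1 j2)
  have x1 : x ∈ ball x (r * (1 / 4) ^ j) := mem_ball_self (by positivity)
  have j3 := Real.rpow_le_rpow (by positivity) j1 α0.le
  rw [← Real.rpow_natCast, ← Real.rpow_mul q0.le, mul_comm, Real.rpow_mul q0.le,
    Real.rpow_logb q0 q1.ne l4, Real.rpow_natCast, pow_succ] at j3
  have j4 : lam ^ j ≤ 4 * (‖y - x‖ / r) ^ Real.logb (1 / 4) lam := by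
    have := mul_le_mul_of_nonneg_left l2 (pow_pos l4 j).le
    linarith [pow_pos l4 j]
  have j5 := mul_le_mul_of_nonneg_right j4 (show 0 ≤ 2 * 2 ^ s * (M + 1) by positivity)
  refine abs_sub_le_iff.2 ⟨?_, ?_⟩
  · linarith [ind j y y1 x x1]
  · linarith [ind j x x1 y y1]

end Vale.Agent.P366Z.H
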