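import Vale.Agent.P366Y.H.Defs

/-!
# P366Y, block H: the segment inequality
-/

open MeasureTheory Metric Filter Topology Set
open scoped ContDiff ENNReal
open Vale.Agent.P366.Stmt

noncomputable section

namespace Vale.Agent.P366Z.H

namespace PoiH

variable {n : ℕ} {G : E n → ℝ≥0∞}

/-- the integral after a homothety with a ratio at least one half -/
theorem scale (hG : Measurable G) {s : ℝ} (hs : 1 / 2 ≤ s) (c : E n) (A : Set (E n)) :
    ∫⁻ a in A, G (s • a + c) ≤ ENNReal.ofReal (2 ^ n) * ∫⁻ y, G y := by
  have h0 : 0 < s := by linarith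
  have h1 : Measurable fun y => G (y + c) := hG.comp (measurable_add_const c)
  refine (setLIntegral_le_lintegral _ _).trans ?_
  rw [← lintegral_map h1 (measurable_const_smul s), Measure.map_addHaar_smul _ h0.ne',
    lintegral_smul_measure, lintegral_add_right_eq_self, finrank_euclideanSpace_fin, smul_eq_mul,
    abs_of_pos (by positivity), ← inv_pow]
  have h2 : s⁻¹ ≤ 2 := by
    rw [inv_le_comm₀ h0 two_pos]
    linarith
  gcongr

/-- the bound for one value of the parameter -/
theorem slice (hG : Measurable G) {A B : Set (E n)} {V : ℝ≥0∞} (hA : volume A ≤ V)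
    (hB : volume B ≤ V) (t : ℝ) :
    ∫⁻ p, G (p.1 + t • (p.2 - p.1)) ∂(volume.restrict A).prod (volume.restrict B) ≤
      ENNReal.ofReal (2 ^ n) * (∫⁻ y, G y) * V := by
  have hm : Measurable fun p : E n × E n => G (p.1 + t • (p.2 - p.1)) :=
    hG.comp (by fun_prop : Continuous fun p : E n × E n => p.1 + t • (p.2 - p.1)).measurable
  rcases le_total (1 / 2) t with h | h
  · rw [lintegral_prod _ hm.aemeasurable]
    refine (lintegral_mono fun a => (le_of_eq ?_).trans (scale hG h (a - t • a) B)).trans ?_
    · refine lintegral_congr fun b => congrArg G ?_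
      rw [smul_sub]
      abel
    · rw [setLIntegral_const]
      gcongr
  · rw [lintegral_prod_symm _ hm.aemeasurable]
    refine (lintegral_mono fun b => (le_of_eq ?_).trans
      (scale hG (s := 1 - t) (by linarith) (t • b) A)).trans ?_
    · refine lintegral_congr fun a => congrArg G ?_
      rw [smul_sub, sub_smul, one_smul]
      abel
    · rw [setLIntegral_const]
      gcongr

end PoiH

open PoiH in
/-- **row POI** -/
theorem poi : POI := by
  intro n
  have v0 : 0 < volume.real (ball (0 : E n) 1) :=
    ENNReal.toReal_pos (measure_ball_pos _ _ one_pos).ne' measure_ball_lt_top.ne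
  refine ⟨2 ^ n * volume.real (ball (0 : E n) 1), by positivity,
    fun g x R A B hg h0 hR mA mB hA hB h => ?_⟩
  have hG : Measurable ((ball x R).indicator fun y => ENNReal.ofReal (g y)) :=
    hg.measurable.ennreal_ofReal.indicator measurableSet_ball
  have h1 : volume A * volume B ≤ ∫⁻ p, (∫⁻ t in Ioc (0 : ℝ) 1,
      (ball x R).indicator (fun y => ENNReal.ofReal (g y)) (p.1 + t • (p.2 - p.1)))
      ∂(volume.restrict A).prod (volume.restrict B) := by
    rw [Measure.prod_restrict, ← Measure.prod_prod, ← setLIntegral_one]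
    refine setLIntegral_mono' (mA.prod mB) fun p hp => ?_
    have hc : Continuous fun t : ℝ => g (p.1 + t • (p.2 - p.1)) := by fun_prop
    have k := ENNReal.ofReal_le_ofReal (h _ hp.1 _ hp.2)
    rw [ENNReal.ofReal_one, intervalIntegral.integral_of_le zero_le_one,
      ofReal_integral_eq_lintegral_ofReal hc.integrableOn_Ioc (ae_of_all _ fun t => h0 _)] at k
    refine k.trans (setLIntegral_mono' measurableSet_Ioc fun t ht => ?_)
    rw [indicator_of_mem ((convex_ball x R).add_smul_sub_mem (hA hp.1) (hB hp.2)
      (Ioc_subset_Icc_self ht))]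
  have hm : Measurable (Function.uncurry fun (p : E n × E n) (t : ℝ) =>
      (ball x R).indicator (fun y => ENNReal.ofReal (g y)) (p.1 + t • (p.2 - p.1))) :=
    hG.comp (by fun_prop : Continuous fun q : (E n × E n) × ℝ =>
      q.1.1 + q.2 • (q.1.2 - q.1.1)).measurable
  rw [lintegral_lintegral_swap hm.aemeasurable] at h1
  have h2 := h1.trans (lintegral_mono fun t => slice hG (measure_mono hA) (measure_mono hB) t)
  have i0 : 0 ≤ ∫ y in ball x R, g y := integral_nonneg h0
  rw [setLIntegral_const, Real.volume_Ioc, sub_zero, ENNReal.ofReal_one, mul_one,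
    lintegral_indicator measurableSet_ball, ← ofReal_integral_eq_lintegral_ofReal
      (int_on hg Subset.rfl) (ae_of_all _ h0), Measure.addHaar_ball_of_pos _ _ hR,
    finrank_euclideanSpace_fin] at h2
  have h3 := ENNReal.toReal_mono (ENNReal.mul_ne_top
    (ENNReal.mul_ne_top ENNReal.ofReal_ne_top ENNReal.ofReal_ne_top)
    (ENNReal.mul_ne_top ENNReal.ofReal_ne_top measure_ball_lt_top.ne)) h2
  rw [ENNReal.toReal_mul, ENNReal.toReal_mul, ENNReal.toReal_mul, ENNReal.toReal_mul,
    ENNReal.toReal_ofReal (by positivity), ENNReal.toReal_ofReal i0,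
    ENNReal.toReal_ofReal (by positivity)] at h3
  refine h3.trans_eq ?_
  rw [Measure.real]
  ring

end Vale.Agent.P366Z.H
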