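import Vale.Agent.P366Y.H.Defs
import Vale.Agent.P366Z.DensB

/-!
# P366Y, block H: the Sobolev inequality on superlevel sets (row SOB)
-/

open MeasureTheory Metric Filter Topology Set
open scoped ContDiff ENNReal NNReal
open Vale.Agent.P366.Stmt Vale.Agent.P366Z.DensH

noncomputable section

namespace Vale.Agent.P366Z.H

namespace SobH

theorem der (t : ℝ) : HasDerivAt (fun s : ℝ => max s 0 ^ 2) (2 * max t 0) t := by
  refine hasDerivAt_iff_isLittleO.2 ((Asymptotics.IsBigO.of_bound' (.of_forall fun s =>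
    ?_)).trans_isLittleO (Asymptotics.isLittleO_pow_sub_sub t one_lt_two))
  rw [Real.norm_eq_abs, norm_pow, norm_norm, Real.norm_eq_abs, sq_abs, smul_eq_mul, abs_le]
  rcases le_total s 0 with h | h <;> rcases le_total t 0 with k | k <;>
    simp only [max_eq_left, max_eq_right, h, k] <;> constructor <;> nlinarith

theorem c1 : ContDiff ℝ 1 fun s : ℝ => max s 0 ^ 2 :=
  contDiff_one_iff_deriv.2 ⟨fun t => (der t).differentiableAt, by
    rw [show deriv (fun s : ℝ => max s 0 ^ 2) = fun t => 2 * max t 0 from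
      funext fun t => (der t).deriv]
    fun_prop⟩

theorem gns (m : ℕ) (hm : 1 ≤ m) : ∃ C > (0 : ℝ), ∀ (f : E (m + 1) → ℝ) (S : Set (E (m + 1)))
    (a X : ℝ), ContDiff ℝ 1 f → HasCompactSupport f → MeasurableSet S → 0 ≤ a → 0 ≤ X →
    (∀ y ∈ S, a ≤ f y) → ∫⁻ y, ‖fderiv ℝ f y‖ₑ ≤ ENNReal.ofReal X →
    a ^ (m + 1) * volume.real S ^ m ≤ (C * X) ^ (m + 1) := by
  have m0 : (0 : ℝ) < m := by exact_mod_cast hm
  have hp : Real.HolderConjugate (Module.finrank ℝ (E (m + 1))) ((m + 1) / m) := by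
    rw [finrank_euclideanSpace_fin, Real.holderConjugate_iff]
    push_cast
    exact ⟨by linarith, by field_simp; ring⟩
  obtain ⟨G, hG⟩ : ∃ G : ℝ≥0, G = lintegralPowLePowLIntegralFDerivConst
    (volume : Measure (E (m + 1))) ((m + 1) / m) := ⟨_, rfl⟩
  refine ⟨G + 1, by positivity, fun f S a X f1 f2 hS ha hX h h3 => ?_⟩
  have h1 := lintegral_pow_le_pow_lintegral_fderiv volume f1 f2 hp
  rw [← hG] at h1
  have h2 : ENNReal.ofReal (a ^ ((m + 1 : ℝ) / m)) * volume S ≤
      ∫⁻ y, ‖f y‖ₑ ^ ((m + 1 : ℝ) / m) := by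
    rw [← setLIntegral_const, ← ENNReal.ofReal_rpow_of_nonneg ha (by positivity)]
    refine le_trans (setLIntegral_mono' hS fun y hy => ENNReal.rpow_le_rpow ?_ (by positivity))
      (setLIntegral_le_lintegral _ _)
    rw [← ofReal_norm]
    exact ENNReal.ofReal_le_ofReal ((h y hy).trans (le_abs_self _))
  have h4 := h2.trans (h1.trans (mul_le_mul_right (ENNReal.rpow_le_rpow h3 (by positivity)) _))
  rw [ENNReal.ofReal_rpow_of_nonneg hX (by positivity), ← ENNReal.ofReal_coe_nnreal,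
    ← ENNReal.ofReal_mul (by positivity)] at h4
  have h5 := ENNReal.toReal_le_of_le_ofReal (by positivity) h4
  rw [ENNReal.toReal_mul, ENNReal.toReal_ofReal (by positivity)] at h5
  have h6 := pow_le_pow_left₀ (by positivity) h5 m
  have e : ∀ b : ℝ, 0 ≤ b → (b ^ ((m + 1 : ℝ) / m)) ^ m = b ^ (m + 1) := fun b hb => by
    rw [← Real.rpow_natCast (_ ^ _), ← Real.rpow_mul hb, div_mul_cancel₀ _ m0.ne',
      ← Nat.cast_add_one, Real.rpow_natCast]
  rw [mul_pow, mul_pow, e a ha, e X hX] at h6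
  refine h6.trans ?_
  rw [mul_pow]
  exact mul_le_mul_of_nonneg_right ((pow_le_pow_left₀ (by positivity) (by linarith) m).trans
    (pow_le_pow_right₀ (le_add_of_nonneg_left (by positivity)) m.le_succ)) (by positivity)

variable {n : ℕ}

theorem cs {g : E n → ℝ} (hg : Continuous g) {s : Set (E n)} {x : E n} {ρ : ℝ}
    (h : s ⊆ ball x ρ) : ∫ y in s, g y ≤ √(volume.real s * ∫ y in s, g y ^ 2) := by
  have k := discrim_le_zero (a := volume.real s) (b := -(2 * ∫ y in s, g y))
    (c := ∫ y in s, g y ^ 2) fun t => by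
      have i1 := int_on (continuous_const (y := t * t)) h
      have i2 := (int_on hg h).const_mul (2 * t)
      have h1 : 0 ≤ ∫ y in s, (t * t - 2 * t * g y + g y ^ 2) :=
        integral_nonneg fun y => by
          show 0 ≤ t * t - 2 * t * g y + g y ^ 2
          nlinarith [sq_nonneg (t - g y)]
      rw [integral_add (i1.fun_sub i2) (int_on (hg.fun_pow 2) h), integral_sub i1 i2,
        setIntegral_const, integral_const_mul, smul_eq_mul] at h1
      linarith
  rw [discrim] at k
  exact Real.le_sqrt_of_sq_le (by nlinarith)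

end SobH

theorem sob : SOB := by
  intro m hm
  obtain ⟨L, hL0, hL⟩ := deriv_bd
  obtain ⟨G, hG0, hG⟩ := SobH.gns m hm
  refine ⟨G * (L + 2), by positivity, fun w x ρ ρ' k h H hw h0 h1 hh hH hb => ?_⟩
  have d0 : 0 < ρ' - ρ := sub_pos.2 h1
  have cw : Continuous fun y => ‖fderiv ℝ w y‖ := (hw.continuous_fderiv one_ne_zero).norm
  have q1 : ∀ z, 0 ≤ ct x (ρ' - ρ) ρ z ∧ ct x (ρ' - ρ) ρ z ≤ 1 := fun z =>
    ⟨Real.smoothTransition.nonneg _, Real.smoothTransition.le_one _⟩
  have q2 : ∀ z, ρ' ≤ ‖z - x‖ → ct x (ρ' - ρ) ρ z = 0 := fun z hz => ct_zero d0 (by linarith)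
  have hA := meas_lev hw.continuous x ρ' k
  have a0 := ms_nonneg w x ρ' k
  have i1 := (int_on cw (inter_subset_left (s := ball x ρ') (t := {y | k < w y}))).const_mul
    (2 * H)
  have i2 := int_on (continuous_const (y := H ^ 2 * (L / (ρ' - ρ))))
    (inter_subset_left (s := ball x ρ') (t := {y | k < w y}))
  have key : ∀ y, ‖fderiv ℝ (fun z => ct x (ρ' - ρ) ρ z * max (w z - k) 0 ^ 2) y‖ₑ ≤
      (ball x ρ' ∩ {y | k < w y}).indicator (fun y => ENNReal.ofReal
        (2 * H * ‖fderiv ℝ w y‖ + H ^ 2 * (L / (ρ' - ρ)))) y := fun y => by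
    by_cases hy : y ∈ ball x ρ' ∩ {y | k < w y}
    swap
    · rw [IsLocalMin.fderiv_eq_zero (.of_forall fun z => le_trans (le_of_eq ?_)
        (mul_nonneg (q1 z).1 (sq_nonneg _))), ← ofReal_norm, norm_zero, ENNReal.ofReal_zero]
      · exact zero_le
      rcases not_and_or.1 hy with k1 | k1
      · rw [q2 y (by simpa [dist_eq_norm] using k1), zero_mul]
      · rw [max_eq_right (sub_nonpos.2 (not_lt.1 k1)), zero_pow two_ne_zero, mul_zero]
    have d1 := ((ct_c1 (x := x) d0 h0).differentiable one_ne_zero y).hasFDerivAt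
    have d2 := (SobH.der (w y - k)).comp_hasFDerivAt y
      ((hw.differentiable one_ne_zero y).hasFDerivAt.sub_const k)
    have p0 : 0 ≤ max (w y - k) 0 := le_max_right _ _
    have p1 : max (w y - k) 0 ≤ H := max_le (by linarith [hb y hy.1]) hH
    rw [indicator_of_mem hy, ← ofReal_norm]
    refine ENNReal.ofReal_le_ofReal (((congrArg norm (d1.fun_mul d2).fderiv).le.trans
      (norm_add_le _ _)).trans (add_le_add ?_ ?_))
    · rw [norm_smul, norm_smul, Real.norm_of_nonneg (q1 y).1, Real.norm_of_nonneg (by positivity)]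
      exact (mul_le_of_le_one_left (by positivity) (q1 y).2).trans
        (mul_le_mul_of_nonneg_right (by linarith) (norm_nonneg _))
    · rw [norm_smul]
      exact mul_le_mul ((Real.norm_of_nonneg (sq_nonneg _)).le.trans (pow_le_pow_left₀ p0 p1 2))
        (ct_fderiv hL0 hL d0) (norm_nonneg _) (sq_nonneg _)
  rw [mul_assoc G]
  refine hG (fun z => ct x (ρ' - ρ) ρ z * max (w z - k) 0 ^ 2) _ _ _
    ((ct_c1 d0 h0).mul (SobH.c1.comp (hw.sub contDiff_const)))
    (.intro (isCompact_closedBall x ρ') fun y hy => by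
      rw [q2 y (by rw [mem_closedBall, dist_eq_norm] at hy; exact (not_le.1 hy).le), zero_mul])
    (meas_lev hw.continuous x ρ (k + h)) (sq_nonneg h) (by positivity) (fun y hy => ?_) ?_
  · have k1 : k + h < w y := hy.2
    rw [ct_one d0 (by rw [← dist_eq_norm]; exact le_of_lt hy.1), one_mul]
    exact pow_le_pow_left₀ hh.le (le_max_of_le_left (by linarith)) 2
  refine (lintegral_mono key).trans ?_
  rw [lintegral_indicator hA, ← ofReal_integral_eq_lintegral_ofReal (i1.fun_add i2)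
    (.of_forall fun y => by positivity), integral_add i1 i2, setIntegral_const, integral_const_mul,
    smul_eq_mul]
  refine ENNReal.ofReal_le_ofReal ?_
  have c1 : ∫ y in ball x ρ' ∩ {y | k < w y}, ‖fderiv ℝ w y‖ ≤ √(ms w x ρ' k * eg w x ρ' k) :=
    SobH.cs cw inter_subset_left
  have c2 := mul_le_mul_of_nonneg_left c1 hH
  have c3 : 0 ≤ L * (H * √(ms w x ρ' k * eg w x ρ' k)) := by positivity
  have c4 : 0 ≤ H ^ 2 / (ρ' - ρ) * ms w x ρ' k := by positivity
  have c5 : ms w x ρ' k * (H ^ 2 * (L / (ρ' - ρ))) = L * (H ^ 2 / (ρ' - ρ) * ms w x ρ' k) := by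
    ring
  show _ + ms w x ρ' k * _ ≤ _
  linarith

end Vale.Agent.P366Z.H
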