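import Vale.Agent.P366Y.H.Defs
import Mathlib.MeasureTheory.Integral.IntervalIntegral.DistLEIntegral

/-!
# P366Y, block H: the points of large oscillation (row BAD)
-/

open MeasureTheory Metric Filter Topology Set
open scoped ContDiff ENNReal
open Vale.Agent.P366.Stmt

noncomputable section

namespace Vale.Agent.P366Z.H

namespace BadH

variable {n : ℕ}

theorem vol (x : E n) {r : ℝ} (hr : 0 < r) :
    volume.real (ball x r) = r ^ n * volume.real (ball (0 : E n) 1) := by
  rw [measureReal_def, Measure.addHaar_ball_of_pos _ x hr, ENNReal.toReal_mul,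
    ENNReal.toReal_ofReal (by positivity), finrank_euclideanSpace_fin, measureReal_def]

theorem seg {ψ : E n → ℝ} (hψ : ContDiff ℝ 1 ψ) {h δ : ℝ} (hh : 0 < h) {a b : E n}
    (hab : ‖b - a‖ ≤ 6 * δ) (k : h / 2 ≤ ‖ψ b - ψ a‖) :
    1 ≤ ∫ t in (0 : ℝ)..1, 144 * δ ^ 2 / h ^ 2 * ‖fderiv ℝ ψ (a + t • (b - a))‖ ^ 2 := by
  have h1 : ∀ t : ℝ, HasDerivAt (fun t : ℝ => ψ (a + t • (b - a)))
      (fderiv ℝ ψ (a + t • (b - a)) (b - a)) t := fun t => by
    have := (hψ.differentiable one_ne_zero _).hasFDerivAt.comp_hasDerivAt t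
      (((hasDerivAt_id t).smul_const (b - a)).const_add a)
    rw [one_smul] at this
    exact this
  have h2 : Continuous fun t : ℝ => 144 * δ ^ 2 / h ^ 2 * ‖fderiv ℝ ψ (a + t • (b - a))‖ ^ 2 := by
    have := hψ.continuous_fderiv one_ne_zero
    fun_prop
  have h3 := norm_sub_le_integral_of_norm_deriv_le_of_le (B := fun t => h / 4 + h / 4 *
    (144 * δ ^ 2 / h ^ 2 * ‖fderiv ℝ ψ (a + t • (b - a))‖ ^ 2)) zero_le_one
    (fun t _ => (h1 t).continuousAt.continuousWithinAt)
    (fun t _ => (h1 t).differentiableAt.differentiableWithinAt)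
    (.of_forall fun t _ => by
      rw [(h1 t).deriv]
      refine ((ContinuousLinearMap.le_opNorm _ _).trans
        (mul_le_mul_of_nonneg_left hab (norm_nonneg _))).trans ?_
      generalize ‖fderiv ℝ ψ (a + t • (b - a))‖ = u
      refine le_of_mul_le_mul_left ?_ hh
      field_simp
      nlinarith [sq_nonneg (12 * δ * u - h)])
    ((continuous_const.add (continuous_const.mul h2)).intervalIntegrable _ _)
  rw [intervalIntegral.integral_add intervalIntegrable_const
    ((h2.intervalIntegrable _ _).const_mul _), intervalIntegral.integral_const_mul] at h3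
  simp only [one_smul, add_sub_cancel, zero_smul, add_zero, intervalIntegral.integral_const,
    sub_zero] at h3
  refine le_of_mul_le_mul_left ?_ (show 0 < h / 4 by positivity)
  linarith

theorem ton {G : E n → ℝ≥0∞} (hG : Measurable G) (r : ℝ) (ε : ℝ≥0∞) :
    ε * volume {x : E n | ε ≤ ∫⁻ y in ball x r, G y} ≤ volume (ball (0 : E n) r) * ∫⁻ y, G y := by
  have h1 : Measurable ({p : E n × E n | dist p.2 p.1 < r}.indicator fun p => G p.2) :=
    (hG.comp measurable_snd).indicator
      (isOpen_lt (continuous_snd.dist continuous_fst) continuous_const).measurableSet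
  have h2 : ∀ x : E n, ∫⁻ y in ball x r, G y =
      ∫⁻ y, {p : E n × E n | dist p.2 p.1 < r}.indicator (fun p => G p.2) (x, y) := fun x => by
    rw [← lintegral_indicator measurableSet_ball]
    rfl
  simp only [h2]
  refine (mul_meas_ge_le_lintegral₀ h1.lintegral_prod_right'.aemeasurable ε).trans_eq ?_
  rw [lintegral_lintegral_swap (f := fun x y => {p : E n × E n | dist p.2 p.1 < r}.indicator
    (fun p => G p.2) (x, y)) h1.aemeasurable, ← lintegral_const_mul _ hG]
  refine lintegral_congr fun y => ?_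
  rw [← Measure.addHaar_ball_center _ y, mul_comm, ← setLIntegral_const,
    ← lintegral_indicator measurableSet_ball]
  refine lintegral_congr fun x => ?_
  simp only [indicator, mem_ofPred_eq, mem_ball, dist_comm]

end BadH

open BadH

/-- row BAD -/
theorem bad_of (hP : POI) : BAD := by
  intro n C h hh
  obtain ⟨C₀, c0, hC⟩ := hP n
  obtain ⟨D, d1, d2, d3⟩ : ∃ D : ℝ, 0 < D ∧ C ≤ D ∧ h ≤ D :=
    ⟨max C h, lt_max_of_lt_right hh, le_max_left _ _, le_max_right _ _⟩
  obtain ⟨e, e0, e1, e2⟩ : ∃ e : ℝ, 0 < e ∧ e ≤ 1 ∧ D * e = h / 4 :=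
    ⟨h / (4 * D), by positivity, (div_le_one (by positivity)).2 (by linarith), by field_simp⟩
  obtain ⟨v, hv, v0⟩ : ∃ v, volume.real (ball (0 : E n) 1) = v ∧ 0 < v := ⟨_, rfl,
    ENNReal.toReal_pos (measure_ball_pos _ _ one_pos).ne' measure_ball_lt_top.ne⟩
  refine ⟨3 ^ n * 3 ^ n * C₀ * 144 / (h ^ 2 * (e ^ n * e ^ n) * v), by positivity,
    fun ψ δ hψ hδ hb => ?_⟩
  have hc : Continuous fun y => ‖fderiv ℝ ψ y‖ ^ 2 := (hψ.continuous_fderiv one_ne_zero).norm.pow 2
  have eδ : 0 < e * δ := by positivity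
  have eδ' : e * δ ≤ δ := mul_le_of_le_one_left hδ.le e1
  have lip : ∀ x a : E n, a ∈ ball x (e * δ) → |ψ a - ψ x| ≤ h / 4 := fun x a ha => by
    refine (convex_univ.norm_image_sub_le_of_norm_fderiv_le (C := D / δ)
      (fun y _ => hψ.differentiable one_ne_zero y)
      (fun y _ => (hb y).trans (by gcongr)) (mem_univ x) (mem_univ a)).trans ?_
    refine (mul_le_mul_of_nonneg_left (mem_ball_iff_norm.1 ha).le (by positivity)).trans_eq ?_
    rw [← e2]
    field_simp
  obtain ⟨ε, hε⟩ : ∃ ε : ℝ, ε = (e * δ) ^ n * v * ((e * δ) ^ n * v) /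
      (C₀ * (3 * δ) ^ n * (144 * δ ^ 2 / h ^ 2)) := ⟨_, rfl⟩
  have ε0 : 0 < ε := by rw [hε]; positivity
  have h1 := ton (G := fun y => ENNReal.ofReal (‖fderiv ℝ ψ y‖ ^ 2)) hc.measurable.ennreal_ofReal
    (3 * δ) (ENNReal.ofReal ε)
  rw [← ofReal_measureReal (s := ball 0 (3 * δ)) measure_ball_lt_top.ne, vol _ (by positivity), hv,
    show (3 * δ) ^ n * v = ε * (3 ^ n * 3 ^ n * C₀ * 144 / (h ^ 2 * (e ^ n * e ^ n) * v) * δ ^ 2) by
      simp only [hε, mul_pow]
      field_simp, ENNReal.ofReal_mul ε0.le, mul_assoc,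
    ENNReal.mul_le_mul_iff_right (ENNReal.ofReal_pos.2 ε0).ne' ENNReal.ofReal_ne_top] at h1
  refine le_trans (measure_mono fun x hx => ?_) h1
  obtain ⟨y, hy, k⟩ := hx
  have sA : ball x (e * δ) ⊆ ball x (3 * δ) := ball_subset_ball (by linarith)
  have sB : ball y (e * δ) ⊆ ball x (3 * δ) := ball_subset_ball' (by linarith [mem_ball.1 hy])
  have h2 := hC (fun y => 144 * δ ^ 2 / h ^ 2 * ‖fderiv ℝ ψ y‖ ^ 2) x (3 * δ) _ _
    (continuous_const.mul hc) (fun _ => by positivity) (by positivity) measurableSet_ball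
    measurableSet_ball sA sB fun a ha b hb => seg hψ hh (by
      rw [← dist_eq_norm]
      linarith [dist_triangle_right b a x, mem_ball.1 (sA ha), mem_ball.1 (sB hb)]) (by
      have k1 := abs_le.1 (lip x a ha)
      have k2 := abs_le.1 (lip y b hb)
      rw [Real.norm_eq_abs]
      rcases le_abs.1 k with k | k
      exacts [le_abs.2 (.inl (by linarith)), le_abs.2 (.inr (by linarith))])
  rw [vol _ eδ, vol _ eδ, hv, integral_const_mul, ← mul_assoc (C₀ * _), ← div_le_iff₀' (by positivity),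
    ← hε] at h2
  change _ ≤ ∫⁻ y in ball x (3 * δ), _
  rw [← ofReal_integral_eq_lintegral_ofReal (int_on hc Subset.rfl)
    (.of_forall fun _ => sq_nonneg _)]
  exact ENNReal.ofReal_le_ofReal h2

end Vale.Agent.P366Z.H
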