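import Vale.Agent.P366Y.H.Defs
import Vale.Agent.P366Z.DensB

/-!
# P366Y, block H: the energy inequality on superlevel sets
-/

open MeasureTheory Metric Filter Topology Set
open scoped ContDiff ENNReal
open Vale.Agent.P366.Stmt

noncomputable section

namespace Vale.Agent.P366Z.H

namespace CacH

variable {n : ℕ}

/-- the divergence theorem on the set where `ψ` is positive -/
theorem div1 {ψ f : E n → ℝ} (hψ : ContDiff ℝ 1 ψ) (hc : HasCompactSupport ψ)
    (hf : ContDiff ℝ 1 f) (i : Fin n) :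
    (∫ y in {y | 0 < ψ y}, ψ y * pd i f y) + ∫ y in {y | 0 < ψ y}, pd i ψ y * f y = 0 := by
  have l1 := lip_of_supp hψ hc
  have hm : MeasurableSet {y | 0 < ψ y} := (isOpen_lt continuous_const hψ.continuous).measurableSet
  have h1 := ibp ((lip_const 0).max l1) (hc.comp_left (g := fun t => max 0 t) (max_self 0)) hf i
  have h2 : ∫ y in {y | 0 < ψ y}, ψ y * pd i f y = ∫ y, max 0 (ψ y) * pd i f y := by
    rw [← integral_indicator hm]
    refine integral_congr_ae (Eventually.of_forall fun y => ?_)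
    by_cases h : 0 < ψ y
    · simp only [indicator, mem_ofPred_eq, h, if_true, max_eq_right h.le]
    · simp only [indicator, mem_ofPred_eq, h, if_false, max_eq_left (not_lt.1 h), zero_mul]
  have h3 : ∫ y in {y | 0 < ψ y}, pd i ψ y * f y = ∫ y, pd i (fun y => max 0 (ψ y)) y * f y := by
    rw [← integral_indicator hm]
    refine integral_congr_ae ?_
    filter_upwards [(lip_const 0).ae_pd_max l1] with y hy
    by_cases h : 0 < ψ y
    · simp only [indicator, mem_ofPred_eq, h, if_true, hy i, not_le.2 h, if_false]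
    · simp only [indicator, mem_ofPred_eq, h, if_false, hy i, not_lt.1 h, if_true, pd_const,
        zero_mul]
  rw [h2, h3, h1, neg_add_cancel]

theorem cpd {f : E n → ℝ} (hf : ContDiff ℝ 1 f) (i : Fin n) : Continuous (pd i f) :=
  (contDiff_pd (k := 0) hf (by norm_num) i).continuous

theorem div0 {ψ : E n → ℝ} {X : Fin n → E n → ℝ} {x : E n} {ρ : ℝ} (hψ : ContDiff ℝ 1 ψ)
    (hc : HasCompactSupport ψ) (hX : ∀ i, ContDiff ℝ 1 (X i)) (hs : {y | 0 < ψ y} ⊆ ball x ρ) :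
    ∫ y in {y | 0 < ψ y}, ∑ i, (ψ y * pd i (X i) y + pd i ψ y * X i y) = 0 := by
  have a := fun i => int_on (hψ.continuous.mul (cpd (hX i) i)) hs
  have b := fun i => int_on ((cpd hψ i).mul (hX i).continuous) hs
  exact (integral_finsetSum _ fun i _ => (a i).add (b i)).trans (Finset.sum_eq_zero fun i _ =>
    (integral_add (a i) (b i)).trans (div1 hψ hc (hX i) i))

theorem alg {l Λ κ η e E p u H N D S T : ℝ} (hκ : κ * l = Λ + 1) (κ0 : 0 ≤ κ) (Λ0 : 0 ≤ Λ)
    (η0 : 0 ≤ η) (η1 : η ≤ 1) (e1 : 1 ≤ e) (eE : e ≤ E) (eH : e - 1 ≤ κ * H * e) (p0 : 0 ≤ p)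
    (u0 : 0 ≤ u) (N0 : 0 ≤ N) (hS : l * p ^ 2 - Λ * u ^ 2 ≤ S)
    (hD : -(Λ * (p ^ 2 + u ^ 2)) ≤ D) (hT : -(N * (p + u)) ≤ T) :
    η ^ 2 * p ^ 2 ≤ 2 * (η ^ 2 * (e - 1) * D + η ^ 2 * κ * e * S + 2 * η * (e - 1) * T) +
      2 * E * (((κ + 1) * Λ + 1) * u ^ 2 + 3 * (κ * H * N) ^ 2) := by
  have e0 : 0 ≤ e := by linarith
  have e2 : 0 ≤ e - 1 := by linarith
  have η2 : η ^ 2 ≤ 1 := pow_le_one₀ η0 η1
  have h1 := mul_le_mul_of_nonneg_left hD (show 0 ≤ η ^ 2 * (e - 1) by positivity)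
  have h1' : 0 ≤ η ^ 2 * (Λ * (p ^ 2 + u ^ 2)) := by positivity
  have h2 := mul_le_mul_of_nonneg_left hS (show 0 ≤ η ^ 2 * κ * e by positivity)
  have h2' : η ^ 2 * κ * e * (l * p ^ 2 - Λ * u ^ 2) =
      η ^ 2 * e * ((Λ + 1) * p ^ 2 - κ * Λ * u ^ 2) := by rw [← hκ]; ring
  have h3 := mul_le_mul_of_nonneg_left hT (show 0 ≤ 2 * η * (e - 1) by positivity)
  have h3' := mul_le_mul_of_nonneg_left eH (show 0 ≤ 2 * η * (N * (p + u)) by positivity)
  have h4 : 2 * η * (κ * H * N) * (p + u) ≤ η ^ 2 * p ^ 2 / 2 + 3 * (κ * H * N) ^ 2 + u ^ 2 := by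
    have := mul_le_mul_of_nonneg_right η2 (sq_nonneg u)
    nlinarith [sq_nonneg (η * p - 2 * (κ * H * N)), sq_nonneg (η * u - κ * H * N)]
  have h5 := mul_le_mul_of_nonneg_left h4 e0
  have h6 := mul_le_mul_of_nonneg_right eE
    (show 0 ≤ ((κ + 1) * Λ + 1) * u ^ 2 + 3 * (κ * H * N) ^ 2 by positivity)
  have h7 := mul_le_mul_of_nonneg_right η2 (show 0 ≤ e * ((κ + 1) * Λ * u ^ 2) by positivity)
  have h8 := mul_le_mul_of_nonneg_right e1 (show 0 ≤ η ^ 2 * p ^ 2 by positivity)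
  linarith

end CacH

open CacH DensH in
/-- **CAC** -/
theorem cac : CAC := by
  intro n l Λ M hl hΛ
  obtain ⟨L, L0, hL⟩ := deriv_bd
  obtain ⟨κ, hκ, κ0⟩ : ∃ κ, κ * l = Λ + 1 ∧ 0 < κ :=
    ⟨(Λ + 1) / l, div_mul_cancel₀ _ hl.ne', by positivity⟩
  refine ⟨2 * Real.exp (κ * (2 * M)) * ((κ + 1) * Λ + 1 + 3 * (κ * n * Λ * L) ^ 2), by positivity,
    fun w X x r hw hX hr h ρ ρ' k H ρ0 hρ hρr H0 HM hk => ?_⟩
  have d0 : 0 < ρ' - ρ := sub_pos.2 hρ
  obtain ⟨η, cη, η0, η1, ηa, ηb, ηd⟩ : ∃ η : E n → ℝ, ContDiff ℝ 1 η ∧ (∀ y, 0 ≤ η y) ∧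
      (∀ y, η y ≤ 1) ∧ (∀ y ∈ ball x ρ, η y = 1) ∧ (∀ y ∉ ball x ρ', η y = 0) ∧
      ∀ y, ‖fderiv ℝ η y‖ ≤ L / (ρ' - ρ) :=
    ⟨ct x (ρ' - ρ) ρ, ct_c1 d0 ρ0, fun _ => Real.smoothTransition.nonneg _,
      fun _ => Real.smoothTransition.le_one _,
      fun y hy => ct_one d0 (mem_ball_iff_norm.1 hy).le,
      fun y hy => ct_zero d0 (by linarith [not_lt.1 (mem_ball_iff_norm.not.1 hy)]),
      fun _ => ct_fderiv L0 hL d0⟩
  have dw : ∀ y, DifferentiableAt ℝ w y := fun y => hw.differentiable (by norm_num) y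
  have dη : ∀ y, DifferentiableAt ℝ η y := fun y => cη.differentiable (by norm_num) y
  have ce : ContDiff ℝ 1 fun y => Real.exp (κ * (w y - k)) - 1 :=
    (contDiff_const.mul (hw.sub contDiff_const)).exp.sub contDiff_const
  have cψ : ContDiff ℝ 1 fun y => η y ^ 2 * (Real.exp (κ * (w y - k)) - 1) := (cη.pow 2).mul ce
  have dψ : ∀ y i, pd i (fun y => η y ^ 2 * (Real.exp (κ * (w y - k)) - 1)) y =
      η y ^ 2 * κ * Real.exp (κ * (w y - k)) * pd i w y +
        2 * η y * (Real.exp (κ * (w y - k)) - 1) * pd i η y := fun y i => by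
    rw [pd_mul ((dη y).fun_pow 2) (ce.differentiable (by norm_num) y), pd_pow (dη y),
      pd_sub_const, pd_exp (((dw y).sub_const k).const_mul κ), pd_const_mul, pd_sub_const]
    push_cast
    ring
  set ψ : E n → ℝ := fun y => η y ^ 2 * (Real.exp (κ * (w y - k)) - 1) with hψ
  have hc : HasCompactSupport ψ := HasCompactSupport.intro (isCompact_closedBall x ρ')
    fun y hy => by simp only [hψ, ηb y fun k => hy (ball_subset_closedBall k)]; ring
  have s1 : {y | 0 < ψ y} ⊆ ball x ρ' ∩ {y | k < w y} := fun y hy => by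
    have hy' : 0 < η y ^ 2 * (Real.exp (κ * (w y - k)) - 1) := hy
    refine ⟨by_contra fun k => by simp [ηb y k] at hy', ?_⟩
    have := sub_pos.1 (pos_of_mul_pos_right hy' (sq_nonneg _))
    exact sub_pos.1 (pos_of_mul_pos_right (Real.one_lt_exp_iff.1 this) κ0.le)
  have s2 : ball x ρ ∩ {y | k < w y} ⊆ {y | 0 < ψ y} := fun y hy => by
    change 0 < η y ^ 2 * (Real.exp (κ * (w y - k)) - 1)
    rw [ηa y hy.1, one_pow, one_mul, sub_pos, Real.one_lt_exp_iff]
    exact mul_pos κ0 (sub_pos.2 hy.2)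
  have s3 := s1.trans inter_subset_left
  have hm : MeasurableSet {y | 0 < ψ y} := (isOpen_lt continuous_const cψ.continuous).measurableSet
  have c1 : Continuous fun y => η y ^ 2 * ‖fderiv ℝ w y‖ ^ 2 :=
    (cη.continuous.pow 2).mul ((hw.continuous_fderiv (by norm_num)).norm.pow 2)
  have c2 : Continuous fun y => ∑ i, (ψ y * pd i (X i) y + pd i ψ y * X i y) :=
    continuous_finsetSum _ fun i _ =>
      (cψ.continuous.mul (cpd (hX i) i)).add ((cpd cψ i).mul (hX i).continuous)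
  obtain ⟨K, K0, hK, hK'⟩ : ∃ K, 0 ≤ K ∧ K = 2 * Real.exp (κ * (2 * M)) *
      (((κ + 1) * Λ + 1) * (1 / r) ^ 2 + 3 * (κ * H * (n * Λ * (L / (ρ' - ρ)))) ^ 2) ∧
      K ≤ 2 * Real.exp (κ * (2 * M)) * ((κ + 1) * Λ + 1 + 3 * (κ * n * Λ * L) ^ 2) *
        (H ^ 2 / (ρ' - ρ) ^ 2 + 1 / r ^ 2) := by
    refine ⟨_, by positivity, rfl, ?_⟩
    rw [mul_assoc _ (_ + _)]
    refine mul_le_mul_of_nonneg_left ?_ (by positivity)
    have a1 : 0 ≤ ((κ + 1) * Λ + 1) * (H ^ 2 / (ρ' - ρ) ^ 2) := by positivity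
    have a2 : 0 ≤ 3 * (κ * n * Λ * L) ^ 2 * (1 / r ^ 2) := by positivity
    have a3 : (κ * H * (n * Λ * (L / (ρ' - ρ)))) ^ 2 =
        (κ * n * Λ * L) ^ 2 * (H ^ 2 / (ρ' - ρ) ^ 2) := by rw [← div_pow]; ring
    rw [a3, div_pow, one_pow]
    linarith
  have pw : ∀ y ∈ {y | 0 < ψ y}, η y ^ 2 * ‖fderiv ℝ w y‖ ^ 2 ≤
      2 * ∑ i, (ψ y * pd i (X i) y + pd i ψ y * X i y) + K := fun y hy => by
    obtain ⟨a, b, c⟩ := h y (ball_subset_ball hρr (s3 hy))
    have t0 : 0 ≤ κ * (w y - k) := mul_nonneg κ0.le (sub_pos.2 (s1 hy).2).le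
    have t1 : κ * (w y - k) ≤ κ * H :=
      mul_le_mul_of_nonneg_left (by linarith [hk y (s3 hy)]) κ0.le
    have e : ∑ i, (ψ y * pd i (X i) y + pd i ψ y * X i y) =
        η y ^ 2 * (Real.exp (κ * (w y - k)) - 1) * ∑ i, pd i (X i) y +
        η y ^ 2 * κ * Real.exp (κ * (w y - k)) * ∑ i, X i y * pd i w y +
        2 * η y * (Real.exp (κ * (w y - k)) - 1) * ∑ i, X i y * pd i η y := by
      simp only [Finset.mul_sum, ← Finset.sum_add_distrib]
      exact Finset.sum_congr rfl fun i _ => by rw [dψ, hψ]; ring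
    rw [e, hK]
    refine alg hκ κ0.le hΛ (η0 y) (η1 y) (Real.one_le_exp t0) (Real.exp_le_exp.2
      (t1.trans (mul_le_mul_of_nonneg_left HM κ0.le))) ?_ (norm_nonneg _) (by positivity)
      (by positivity) (by rw [div_pow, one_pow, mul_one_div]; exact a)
      (by rw [div_pow, one_pow]; exact c) ?_
    · have a1 := mul_le_mul_of_nonneg_right (Real.add_one_le_exp (-(κ * (w y - k))))
        (Real.exp_pos (κ * (w y - k))).le
      rw [← Real.exp_add, neg_add_cancel, Real.exp_zero] at a1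
      linarith [mul_le_mul_of_nonneg_right t1 (Real.exp_pos (κ * (w y - k))).le]
    · have a1 : ∀ i ∈ Finset.univ, -(Λ * (‖fderiv ℝ w y‖ + 1 / r) * (L / (ρ' - ρ))) ≤
          X i y * pd i η y := fun i _ => neg_le_of_abs_le (by
        rw [abs_mul]
        exact mul_le_mul (b i) ((abs_pd_le (dη y) i).trans (ηd y)) (abs_nonneg _) (by positivity))
      have a2 := Finset.card_nsmul_le_sum _ _ _ a1
      rw [Finset.card_univ, Fintype.card_fin, nsmul_eq_mul] at a2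
      linarith
  have i1 : eg w x ρ k ≤ ∫ y in {y | 0 < ψ y}, η y ^ 2 * ‖fderiv ℝ w y‖ ^ 2 := by
    refine le_trans (le_of_eq (setIntegral_congr_fun (meas_lev hw.continuous x ρ k)
      fun y hy => ?_)) (setIntegral_mono_set (int_on c1 s3)
        (Eventually.of_forall fun y => by positivity) s2.eventuallyLE)
    simp only [ηa y hy.1, one_pow, one_mul]
  have i2 := setIntegral_mono_on (int_on c1 s3) (int_on
    ((continuous_const.fun_mul c2).fun_add continuous_const) s3) hm pw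
  rw [integral_add ((int_on c2 s3).const_mul 2) (int_on continuous_const s3), integral_const_mul,
    div0 cψ hc hX s3, setIntegral_const, smul_eq_mul, mul_zero, zero_add, mul_comm] at i2
  refine i1.trans (i2.trans (mul_le_mul hK' ?_ measureReal_nonneg (K0.trans hK')))
  exact measureReal_mono s1 (fin_sub inter_subset_left)

end Vale.Agent.P366Z.H
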