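import Vale.Agent.P366Y.H.Sob
import Vale.Agent.P366Y.H.Dga
import Vale.Agent.P366Y.H.Poi
import Vale.Agent.P366Y.H.Dgb
import Vale.Agent.P366Y.H.Dgh
import Vale.Agent.P366Y.H.Cac
import Vale.Agent.P366Y.H.Bad

/-!
# P366Y, block H: the closed forms
-/

namespace Vale.Agent.P366Z.H

theorem dgh : DGH := dgh_of (dga_of sob) (dgb_of poi)

theorem hol : HOL := hol_of cac dgh

theorem bad : BAD := bad_of poi

end Vale.Agent.P366Z.H
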