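import Vale.Agent.P366Y.H.TlA

/-!
# P366Y, block H: the gradient estimate
-/

open Metric Filter Topology Set
open Vale.Agent.P366.Stmt

noncomputable section

namespace Vale.Agent.P366Z.H

variable {n : ℕ}

namespace TlH

theorem num {N l Λ γ e ρ S L T d D Q C : ℝ} (hN : 0 ≤ N) (hl : 0 < l) (hΛ : 0 ≤ Λ) (hγ : 0 < γ)
    (he : 0 < e) (ρ0 : 0 ≤ ρ) (S0 : 0 ≤ S) (Q0 : 0 ≤ Q) (hS : e * S ≤ L) (hρ : ρ ≤ L ^ 2)
    (L0 : 0 < L) (d0 : 0 < d) (hT : T * d = L) (D0 : 0 < D) (hd : L * d * γ / 2 ≤ Λ * D ^ 2)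
    (hC : C = 2 * Λ / e ^ 2 + (2 * Λ + 2 * Q * N * Λ + l * Q + Q * N * l))
    (h1 : N * (Λ * D ^ 2) ≤ l / 2) (h2 : (N + 2 * N ^ 2) * Λ * D ≤ l * γ)
    (h3 : 2 * C * Λ * D < l * γ ^ 2)
    (h : -(2 * (Λ * (S ^ 2 + ρ))) ≤ 2 * (Q * ρ) * (N * Λ) + l / 2 * (2 * (Q * ρ) - 4 * γ * D * T) +
      (T + 2 * (Q * ρ)) * (N * (N * (Λ * D ^ 2))) +
        T * (N * (Λ * D ^ 2) + N * (N * (Λ * D ^ 2)))) : False := by
  have T0 : 0 < T := by
    by_contra hc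
    nlinarith [mul_nonneg (neg_nonneg.2 (not_lt.1 hc)) d0.le]
  have a1 : 2 * (Q * ρ) * (N * (N * (Λ * D ^ 2))) ≤ 2 * (Q * ρ) * (N * (l / 2)) := by gcongr
  have a2 : T * D * ((N + 2 * N ^ 2) * Λ * D) ≤ T * D * (l * γ) := by gcongr
  have a3 : S ^ 2 ≤ L ^ 2 / e ^ 2 := by
    rw [le_div_iff₀ (by positivity), ← mul_pow]
    exact pow_le_pow_left₀ (by positivity) (by linarith) 2
  have a4 : 2 * Λ * S ^ 2 ≤ 2 * Λ * (L ^ 2 / e ^ 2) := by gcongr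
  have a5 : (2 * Λ + 2 * Q * N * Λ + l * Q + Q * N * l) * ρ ≤
      (2 * Λ + 2 * Q * N * Λ + l * Q + Q * N * l) * L ^ 2 := by gcongr
  have C0 : 0 ≤ C := by rw [hC]; positivity
  have a6 : l * γ * D * T ≤ C * L ^ 2 := by
    have : C * L ^ 2 = 2 * Λ * (L ^ 2 / e ^ 2) +
        (2 * Λ + 2 * Q * N * Λ + l * Q + Q * N * l) * L ^ 2 := by rw [hC]; ring
    nlinarith
  have a7 : l * γ * D ≤ C * (L * d) := by
    have := mul_le_mul_of_nonneg_right a6 d0.le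
    have e1 : l * γ * D * T * d = l * γ * D * L := by rw [← hT]; ring
    rw [e1] at this
    exact le_of_mul_le_mul_right (by nlinarith) L0
  have a8 : C * (L * d * γ / 2) ≤ C * (Λ * D ^ 2) := by gcongr
  have a9 := mul_lt_mul_of_pos_right h3 D0
  nlinarith [mul_le_mul_of_nonneg_right a7 hγ.le]

theorem om_le {L r γ s : ℝ} (hL : 0 ≤ L) (hr : 0 < r) (hγ : 0 < γ) (hs : 0 ≤ s) :
    om L r γ s ≤ L * s := by
  have : 0 ≤ r * (s / r) ^ (1 + γ) / (1 + γ) := by positivity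
  unfold om
  gcongr
  linarith

theorem om_ge {L r γ s : ℝ} (hL : 0 ≤ L) (hr : 0 < r) (hγ : 0 < γ) (h1 : γ ≤ 1) (hs : 0 ≤ s)
    (hs' : s ≤ r) : L * s * γ / 2 ≤ om L r γ s := by
  have a1 : (s / r) ^ (1 + γ) ≤ s / r :=
    Real.rpow_le_self_of_le_one (by positivity) ((div_le_one hr).2 hs') (by linarith)
  have a2 : r * (s / r) ^ (1 + γ) ≤ s := by
    have := mul_le_mul_of_nonneg_left a1 hr.le
    rwa [mul_div_cancel₀ _ hr.ne'] at this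
  have a3 : r * (s / r) ^ (1 + γ) / (1 + γ) ≤ s - s * γ / 2 := by
    rw [div_le_iff₀ (by positivity)]
    nlinarith [mul_nonneg (mul_nonneg hs hγ.le) (sub_nonneg.2 h1)]
  have : L * s * γ / 2 = L * (s * γ / 2) := by ring
  rw [this, om]
  gcongr
  linarith

theorem drop {L γ D d p N : ℝ} (hL : 0 ≤ L) (hγ : 0 < γ) (D0 : 0 ≤ D) (D1 : D ≤ 1) (d0 : 0 < d)
    (hN : 0 ≤ N) : L * (-(γ * D / d * p ^ 2) + (1 - D) * (N - p ^ 2) / d) ≤ L / d * N := by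
  have a1 : 0 ≤ γ * D / d * p ^ 2 := by positivity
  have a2 : (1 - D) * (N - p ^ 2) / d ≤ N / d := by
    gcongr
    nlinarith [mul_nonneg D0 hN, mul_nonneg (sub_nonneg.2 D1) (sq_nonneg p)]
  have : L / d * N = L * (N / d) := by ring
  rw [this]
  gcongr
  linarith

/-- the hypotheses -/
def Hy (l Λ α : ℝ) (w : E n → ℝ) (a : Fin n → Fin n → E n → ℝ) (x : E n) (r S : ℝ) : Prop :=
  ∀ y ∈ ball x r, (∀ i j, a i j y = a j i y) ∧
    (∀ ξ : Fin n → ℝ, l * ∑ i, ξ i ^ 2 ≤ ∑ i, ∑ j, a i j y * ξ i * ξ j) ∧ (∀ i j, |a i j y| ≤ Λ) ∧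
    |∑ i, ∑ j, a i j y * pd i (pd j w) y| ≤ Λ * (S ^ 2 + 1 / r ^ 2) ∧
    ∀ z ∈ ball x r, (∀ i j, |a i j y - a i j z| ≤ Λ * (‖y - z‖ / r) ^ α) ∧
      |w y - w z| ≤ Λ * (‖y - z‖ / r) ^ α

theorem core {w : E n → ℝ} {a : Fin n → Fin n → E n → ℝ} {y z : E n} {l Λ γ e r S Q C L D : ℝ}
    (hw : ContDiff ℝ 2 w) (hl : 0 < l) (hΛ : 0 ≤ Λ) (γ0 : 0 < γ) (γ1 : γ ≤ 1 / 2) (he : 0 < e)
    (hr : 0 < r) (S0 : 0 ≤ S) (Q0 : 0 < Q) (C0 : 0 ≤ C)
    (hC : C = 2 * Λ / e ^ 2 + (2 * Λ + 2 * Q * n * Λ + l * Q + Q * n * l)) (hL : e * S ≤ L)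
    (Lr : 1 ≤ L * r) (L0 : 0 < L) (hne : y - z ≠ 0) (D0 : 0 < D) (D1 : D ≤ 1)
    (o1 : L * ‖y - z‖ * γ / 2 ≤ Λ * D ^ 2)
    (u1 : ((n : ℝ) + 2 * n ^ 2) * Λ * D + 2 * C * Λ * D < l * γ ^ 2)
    (a1 : ∀ ξ : Fin n → ℝ, l * ∑ i, ξ i ^ 2 ≤ ∑ i, ∑ j, a i j y * ξ i * ξ j)
    (a2 : ∀ i j, |a i j y| ≤ Λ)
    (a3 : |∑ i, ∑ j, a i j y * pd i (pd j w) y| ≤ Λ * (S ^ 2 + 1 / r ^ 2))
    (b3 : |∑ i, ∑ j, a i j z * pd i (pd j w) z| ≤ Λ * (S ^ 2 + 1 / r ^ 2))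
    (a4 : ∀ i j, |a i j y - a i j z| ≤ Λ * D ^ 2)
    (tw : ∀ ξ η : E n, qd (fun i j => pd i (pd j w) y) ξ - qd (fun i j => pd i (pd j w) z) η ≤
      L * (-(γ * D / ‖y - z‖ * (inner ℝ (y - z) (ξ - η) / ‖y - z‖) ^ 2) +
        (1 - D) * (‖ξ - η‖ ^ 2 - (inner ℝ (y - z) (ξ - η) / ‖y - z‖) ^ 2) / ‖y - z‖) +
          2 * (Q * (1 / r ^ 2)) * ‖ξ‖ ^ 2) : False := by
  have n0 : (0 : ℝ) ≤ n := Nat.cast_nonneg n
  have d0 : 0 < ‖y - z‖ := norm_pos_iff.2 hne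
  have u2 : 0 ≤ 2 * C * Λ * D := by positivity
  have u3 : 0 ≤ 2 * (n : ℝ) ^ 2 * Λ * D := by positivity
  have u4 : 0 ≤ (n : ℝ) * Λ * D := by positivity
  have u5 : l * γ ^ 2 ≤ l * γ := by
    have : γ ^ 2 ≤ γ := by nlinarith
    gcongr
  have u6 : l * γ ≤ l / 2 := by nlinarith
  have u7 : n * (Λ * D ^ 2) ≤ l / 2 := by nlinarith [mul_le_of_le_one_right u4 D1]
  let u : E n := ‖y - z‖⁻¹ • (y - z)
  have nu : ‖u‖ = 1 := norm_smul_inv_norm hne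
  have z0 : ∀ M : Fin n → Fin n → ℝ, qd M (0 : E n) = 0 := fun M => by simp [qd]
  have ns : ∀ ξ : Fin n → ℝ, ‖(WithLp.toLp 2 ξ : E n)‖ ^ 2 = ∑ i, ξ i ^ 2 := fun ξ => norm_sq_eq _
  have main := alg (X := fun i j => pd i (pd j w) y) (Y := fun i j => pd i (pd j w) z)
    (a := fun i j => a i j y) (b := fun i j => a i j z) (e := u) (P := Q * (1 / r ^ 2))
    (T := L / ‖y - z‖) (G := 4 * γ * D * (L / ‖y - z‖)) hl (by positivity) (by positivity)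
    (by positivity) (pd_comm hw.contDiffAt) (pd_comm hw.contDiffAt) a1 a2 a4 u7
    (by rw [← norm_sq_eq, nu, one_pow]) (fun ξ => ?_) ?_ (fun ξ => ?_) (fun ξ => ?_)
  · refine num (S := S) n0 hl hΛ γ0 he (by positivity : 0 ≤ 1 / r ^ 2) S0 Q0.le hL ?_ L0 d0
      (div_mul_cancel₀ L d0.ne') D0 o1 hC u7 (by linarith) (by linarith) ?_
    · rw [div_le_iff₀ (by positivity), ← mul_pow]
      exact one_le_pow₀ Lr
    · linarith [(abs_le.1 a3).1, (abs_le.1 b3).2]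
  · have := tw (WithLp.toLp 2 ξ) (WithLp.toLp 2 ξ)
    rw [ns ξ] at this
    simpa using this
  · have := tw u (-u)
    have e1 : qd (fun i j => pd i (pd j w) z) (-u : E n) = qd (fun i j => pd i (pd j w) z) u := by
      simp [qd]
    have e2 : u - -u = (2 : ℝ) • u := by rw [sub_neg_eq_add, two_smul]
    have e3 : inner ℝ (y - z) ((2 : ℝ) • u) / ‖y - z‖ = 2 := by
      simp only [u, inner_smul_right, real_inner_self_eq_norm_sq]
      field_simp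
    rw [e1, e2, e3, norm_smul, nu] at this
    refine this.trans (le_of_eq ?_)
    simp only [Real.norm_ofNat]
    ring
  · have := tw (WithLp.toLp 2 ξ) 0
    rw [z0, sub_zero, sub_zero] at this
    refine (this.trans (add_le_add (drop L0.le γ0 D0.le D1 d0 (sq_nonneg _)) le_rfl)).trans_eq ?_
    rw [ns]; ring
  · have := tw 0 (WithLp.toLp 2 ξ)
    rw [z0, zero_sub, zero_sub] at this
    refine (this.trans (add_le_add (drop L0.le γ0 D0.le D1 d0 (sq_nonneg _)) le_rfl)).trans_eq ?_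
    rw [norm_neg, ns]; simp

theorem side (n : ℕ) {l Λ α e : ℝ} (hl : 0 < l) (hΛ : 0 ≤ Λ) (α0 : 0 < α) (α1 : α ≤ 1)
    (he : 0 < e) : ∃ K > (0 : ℝ), ∀ (w : E n → ℝ) (a : Fin n → Fin n → E n → ℝ) (x : E n)
      (r S : ℝ), ContDiff ℝ 2 w → 0 < r → 0 ≤ S → Hy l Λ α w a x r S →
      ∀ z ∈ closedBall x (r / 2), w x - w z ≤ (e * S + K / r) * ‖z - x‖ := by
  have n0 : (0 : ℝ) ≤ n := Nat.cast_nonneg n
  obtain ⟨γ, hγ⟩ : ∃ γ, γ = α / 2 := ⟨_, rfl⟩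
  have γ0 : 0 < γ := by linarith
  have γ1 : γ ≤ 1 / 2 := by linarith
  obtain ⟨Q, hQ⟩ : ∃ Q, Q = 16 * (Λ + 1) := ⟨_, rfl⟩
  have Q0 : 0 < Q := by linarith
  obtain ⟨C, hC⟩ : ∃ C, C = 2 * Λ / e ^ 2 + (2 * Λ + 2 * Q * n * Λ + l * Q + Q * n * l) := ⟨_, rfl⟩
  have C0 : 0 ≤ C := by rw [hC]; positivity
  obtain ⟨A, hA⟩ : ∃ A, A = (n + 2 * n ^ 2) * Λ + 2 * C * Λ := ⟨_, rfl⟩
  have A0 : 0 ≤ A := by rw [hA]; positivity
  obtain ⟨D₀, hD⟩ : ∃ D₀, D₀ = l * γ ^ 2 / (A + 1) := ⟨_, rfl⟩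
  have D00 : 0 < D₀ := by rw [hD]; positivity
  have hAD : A * D₀ < l * γ ^ 2 := by
    have : (A + 1) * D₀ = l * γ ^ 2 := by rw [hD]; field_simp
    linarith
  obtain ⟨δ, hδ⟩ : ∃ δ, δ = min (1 / 4) (D₀ ^ γ⁻¹) := ⟨_, rfl⟩
  have δ0 : 0 < δ := by rw [hδ]; positivity
  refine ⟨2 * Λ / (γ * δ) + 1, by positivity, fun w a x r S hw hr S0 H z' hz' => ?_⟩
  obtain ⟨L, hL⟩ : ∃ L, L = e * S + (2 * Λ / (γ * δ) + 1) / r := ⟨_, rfl⟩
  rw [← hL]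
  have k0 : 0 ≤ 2 * Λ / (γ * δ) := by positivity
  have eS : 0 ≤ e * S := by positivity
  have L0 : 0 < L := by rw [hL]; positivity
  have Lr : 2 * Λ / (γ * δ) + 1 ≤ L * r := by
    have : L * r = e * S * r + (2 * Λ / (γ * δ) + 1) := by rw [hL]; field_simp
    linarith [mul_nonneg eS hr.le]
  let Φ : E n × E n → ℝ := fun p =>
    w p.1 - w p.2 - om L r γ ‖p.1 - p.2‖ - Q * (1 / r ^ 2) * ‖p.1 - x‖ ^ 2
  have cw := hw.continuous
  have cΦ : Continuous Φ := by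
    have : Continuous fun s : ℝ => s ^ (1 + γ) := Real.continuous_rpow_const (by linarith)
    simp only [Φ, om]
    fun_prop (disch := intros; right; linarith)
  obtain ⟨⟨y, z⟩, ⟨hy, hz⟩, hm⟩ := ((isCompact_closedBall x (r / 4)).prod
    (isCompact_closedBall x (r / 2))).exists_isMaxOn
    ⟨(x, x), mem_closedBall_self (by positivity), mem_closedBall_self (by positivity)⟩
    cΦ.continuousOn
  by_contra hc
  have p0 : 0 < Φ (y, z) := by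
    refine lt_of_lt_of_le ?_ (hm (a := (x, z')) ⟨mem_closedBall_self (by positivity), hz'⟩)
    have := om_le L0.le hr γ0 (norm_nonneg (x - z'))
    rw [norm_sub_rev] at this
    simp only [Φ, sub_self, norm_zero, norm_sub_rev x z']
    linarith
  rw [mem_closedBall, dist_eq_norm] at hy hz
  simp only at hy hz
  have by' : y ∈ ball x r := by rw [mem_ball, dist_eq_norm]; linarith
  have bz : z ∈ ball x r := by rw [mem_ball, dist_eq_norm]; linarith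
  have t1 : ‖y - z‖ ≤ ‖y - x‖ + ‖z - x‖ := by
    have := norm_sub_le (y - x) (z - x)
    rwa [sub_sub_sub_cancel_right] at this
  have t2 : ‖z - x‖ ≤ ‖y - x‖ + ‖y - z‖ := by
    have := norm_sub_le (y - x) (y - z)
    rwa [sub_sub_sub_cancel_left] at this
  obtain ⟨-, a1, a2, a3, a4⟩ := H y by'
  obtain ⟨a4, a5⟩ := a4 z bz
  have b3 := (H z bz).2.2.2.1
  have dr : ‖y - z‖ ≤ r := by linarith
  have o1 := om_ge L0.le hr γ0 (by linarith) (norm_nonneg (y - z)) dr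
  have q0 : 0 ≤ Q * (1 / r ^ 2) * ‖y - x‖ ^ 2 := by positivity
  simp only [Φ] at p0
  have hne : y - z ≠ 0 := fun h => by
    rw [sub_eq_zero.1 h] at p0 o1 q0
    simp only [sub_self, norm_zero] at p0 o1
    linarith
  have d0 : 0 < ‖y - z‖ := norm_pos_iff.2 hne
  have δp : 0 < ‖y - z‖ / r := div_pos d0 hr
  have D0 : 0 < (‖y - z‖ / r) ^ γ := Real.rpow_pos_of_pos δp γ
  have D1 : (‖y - z‖ / r) ^ γ ≤ 1 := Real.rpow_le_one δp.le ((div_le_one hr).2 dr) γ0.le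
  have D2 : (‖y - z‖ / r) ^ α = ((‖y - z‖ / r) ^ γ) ^ 2 := by
    rw [sq, ← Real.rpow_add δp, hγ, add_halves]
  have tw := two hw hr γ0 hne (P := Q * (1 / r ^ 2)) (L := L) (x := x)
  have dδ : ‖y - z‖ / r ≤ δ → (‖y - z‖ / r) ^ γ ≤ D₀ := fun h => by
    rw [← Real.rpow_inv_rpow D00.le γ0.ne']
    exact Real.rpow_le_rpow δp.le (h.trans (hδ ▸ min_le_right _ _)) γ0.le
  rw [D2] at a4 a5
  generalize (‖y - z‖ / r) ^ γ = D at *
  have a6 := (abs_le.1 a5).2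
  have D3 : Λ * D ^ 2 ≤ Λ := mul_le_of_le_one_right hΛ (pow_le_one₀ D0.le D1)
  have o0 : 0 < L * ‖y - z‖ * γ / 2 := by positivity
  have iy : ‖y - x‖ < r / 4 := by
    refine lt_of_pow_lt_pow_left₀ 2 (by positivity) ?_
    refine lt_of_mul_lt_mul_left (a := Q * (1 / r ^ 2)) ?_ (by positivity)
    have : Q * (1 / r ^ 2) * (r / 4) ^ 2 = Λ + 1 := by rw [hQ]; field_simp; ring
    linarith
  have id : ‖y - z‖ / r ≤ δ := by
    have e1 : 2 * Λ / (γ * δ) * (γ * δ) = 2 * Λ := by field_simp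
    have e2 : 2 * Λ ≤ L * r * (γ * δ) := by
      rw [← e1]; exact mul_le_mul_of_nonneg_right (by linarith) (by positivity)
    rw [div_le_iff₀ hr]
    refine le_of_mul_le_mul_left (a := L * γ) ?_ (by positivity)
    have e3 : L * γ * (δ * r) = L * r * (γ * δ) := by ring
    have e4 : L * γ * ‖y - z‖ = 2 * (L * ‖y - z‖ * γ / 2) := by ring
    rw [e3, e4]
    linarith only [e2, o1, p0, q0, a6, D3]
  have iz : ‖z - x‖ < r / 2 := by
    have := (div_le_iff₀ hr).1 (id.trans (hδ ▸ min_le_left _ _))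
    linarith
  replace tw := tw (hm.isLocalMax (prod_mem_nhds
    (closedBall_mem_nhds_of_mem (by rwa [mem_ball, dist_eq_norm]))
    (closedBall_mem_nhds_of_mem (by rwa [mem_ball, dist_eq_norm]))))
  have DD := dδ id
  have u1 : ((n : ℝ) + 2 * n ^ 2) * Λ * D + 2 * C * Λ * D < l * γ ^ 2 := by
    have := mul_le_mul_of_nonneg_left DD A0
    rw [hA] at this hAD
    linarith
  exact core hw hl hΛ γ0 γ1 he hr S0 Q0 C0 hC (by rw [hL]; exact le_add_of_nonneg_right (by positivity))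
    (by linarith) L0 hne D0 D1 (by linarith) u1 a1 a2 a3 b3 a4 tw

end TlH

theorem tl : TL := by
  intro n l Λ α e hl hΛ α0 α1 he
  obtain ⟨K, K0, h⟩ := TlH.side n hl hΛ α0 α1 he
  refine ⟨K, K0, fun w a x r S hw hr S0 H => ?_⟩
  have h1 := h w a x r S hw hr S0 H
  have h2 := h (fun y => -w y) a x r S hw.neg hr S0 fun y hy => by
    obtain ⟨a0, a1, a2, a3, a4⟩ := H y hy
    refine ⟨a0, a1, a2, ?_, fun z hz => ⟨(a4 z hz).1, ?_⟩⟩
    · have e1 : ∀ j, pd j (fun y => -w y) = fun y => -pd j w y := fun j => funext fun _ => pd_neg j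
      simpa only [e1, pd_neg, mul_neg, Finset.sum_neg_distrib, abs_neg] using a3
    · rw [neg_sub_neg, abs_sub_comm]; exact (a4 z hz).2
  refine (hw.differentiable (by norm_num) x).hasFDerivAt.le_of_lip' (by positivity) ?_
  filter_upwards [closedBall_mem_nhds x (half_pos hr)] with z hz
  have := h1 z hz
  have := h2 z hz
  rw [Real.norm_eq_abs, abs_le]
  constructor <;> linarith

end Vale.Agent.P366Z.H
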