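import Vale.Agent.P366Y.H.Defs
import Vale.Agent.P272.K.MP.Local
import Mathlib.Analysis.Matrix.Order

/-!
# P366Y, block H: the second order condition at a maximum in two points
-/

open Metric Filter Topology Set
open Vale.Agent.P366.Stmt Vale.Agent.P272.K.MP

noncomputable section

namespace Vale.Agent.P366Z.H.TlH

variable {n : ℕ}

/-- the quadratic form of a matrix -/
def qd (M : Fin n → Fin n → ℝ) (ξ : Fin n → ℝ) : ℝ := ∑ i, ∑ j, M i j * ξ i * ξ j

open scoped MatrixOrder in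
theorem trp {B Z : Fin n → Fin n → ℝ} {c : ℝ} (hB : ∀ ξ, 0 ≤ qd B ξ) (hs : ∀ i j, Z i j = Z j i)
    (hZ : ∀ ξ, qd Z ξ ≤ c * ∑ i, ξ i ^ 2) : ∑ i, ∑ j, B i j * Z i j ≤ c * ∑ i, B i i := by
  let N : Matrix (Fin n) (Fin n) ℝ := Matrix.of fun i j => (if i = j then c else 0) - Z i j
  have hN : N.PosSemidef := by
    refine .of_dotProduct_mulVec_nonneg ?_ fun ξ => ?_
    · ext i j
      simp only [N, Matrix.conjTranspose_apply, Matrix.of_apply, star_trivial, hs j i, eq_comm]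
    · have := hZ ξ
      simp only [N, dotProduct, Matrix.mulVec, Matrix.of_apply, star_trivial, sub_mul, ite_mul,
        zero_mul, Finset.sum_sub_distrib, Finset.sum_ite_eq, Finset.mem_univ, if_true, mul_sub,
        Finset.mul_sum]
      rw [qd, Finset.mul_sum] at this
      have e1 : ∑ i, ξ i * (c * ξ i) = ∑ i, c * ξ i ^ 2 := Finset.sum_congr rfl fun i _ => by ring
      have e2 : ∑ i, ∑ j, ξ i * (Z i j * ξ j) = ∑ i, ∑ j, Z i j * ξ i * ξ j :=
        Finset.sum_congr rfl fun i _ => Finset.sum_congr rfl fun j _ => by ring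
      linarith
  obtain ⟨C, hC⟩ := CStarAlgebra.nonneg_iff_eq_star_mul_self.mp hN.nonneg
  have h1 : ∑ i, ∑ j, B i j * N i j = ∑ k, qd B (C k) := by
    simp only [hC, Matrix.mul_apply, Matrix.star_apply, star_trivial, Finset.mul_sum, qd]
    symm
    rw [Finset.sum_comm]
    refine Finset.sum_congr rfl fun i _ => ?_
    rw [Finset.sum_comm]
    exact Finset.sum_congr rfl fun j _ => Finset.sum_congr rfl fun k _ => by ring
  have h2 : 0 ≤ ∑ i, ∑ j, B i j * N i j := h1 ▸ Finset.sum_nonneg fun k _ => hB _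
  simp only [N, Matrix.of_apply, mul_sub, mul_ite, mul_zero, Finset.sum_sub_distrib,
    Finset.sum_ite_eq, Finset.mem_univ, if_true, ← Finset.sum_mul] at h2
  linarith

theorem qd_id (c : ℝ) (ξ : Fin n → ℝ) :
    qd (fun i j => if i = j then c else 0) ξ = c * ∑ i, ξ i ^ 2 := by
  simp only [qd, ite_mul, zero_mul, Finset.sum_ite_eq, Finset.mem_univ, if_true, Finset.mul_sum]
  exact Finset.sum_congr rfl fun i _ => by ring

theorem qd_sub (A B : Fin n → Fin n → ℝ) (ξ : Fin n → ℝ) :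
    qd (fun i j => A i j - B i j) ξ = qd A ξ - qd B ξ := by
  simp only [qd, sub_mul, Finset.sum_sub_distrib]

theorem qd_one (c : ℝ) (e ξ : Fin n → ℝ) :
    qd (fun i j => c * (e i * e j)) ξ = c * (∑ i, e i * ξ i) ^ 2 := by
  rw [sq, Finset.sum_mul_sum]
  simp only [qd, Finset.mul_sum]
  exact Finset.sum_congr rfl fun i _ => Finset.sum_congr rfl fun j _ => by ring

theorem alg {X Y a b : Fin n → Fin n → ℝ} {e : Fin n → ℝ} {l Λ ε P T G : ℝ} (hl : 0 < l)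
    (hε : 0 ≤ ε) (hP : 0 ≤ P) (hT : 0 ≤ T) (hX : ∀ i j, X i j = X j i) (hY : ∀ i j, Y i j = Y j i)
    (ha : ∀ ξ, l * ∑ i, ξ i ^ 2 ≤ qd a ξ) (hΛ : ∀ i j, |a i j| ≤ Λ)
    (hab : ∀ i j, |a i j - b i j| ≤ ε) (hs : n * ε ≤ l / 2) (he : ∑ i, e i ^ 2 = 1)
    (h1 : ∀ ξ, qd X ξ - qd Y ξ ≤ 2 * P * ∑ i, ξ i ^ 2) (h2 : qd X e - qd Y e ≤ 2 * P - G)
    (h3 : ∀ ξ, qd X ξ ≤ (T + 2 * P) * ∑ i, ξ i ^ 2) (h4 : ∀ ξ, -qd Y ξ ≤ T * ∑ i, ξ i ^ 2) :
    ∑ i, ∑ j, a i j * X i j - ∑ i, ∑ j, b i j * Y i j ≤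
      2 * P * (n * Λ) + l / 2 * (2 * P - G) + (T + 2 * P) * (n * (n * ε)) +
        T * (n * ε + n * (n * ε)) := by
  have n0 : (0 : ℝ) ≤ n := Nat.cast_nonneg n
  have s0 : ∀ ξ : Fin n → ℝ, 0 ≤ ∑ i, ξ i ^ 2 := fun ξ => Finset.sum_nonneg fun i _ => sq_nonneg _
  let I : Fin n → Fin n → ℝ := fun i j => if i = j then n * ε else 0
  let B : Fin n → Fin n → ℝ := fun i j => a i j - l / 2 * (e i * e j) - I i j
  let C : Fin n → Fin n → ℝ := fun i j => I i j - (a i j - b i j)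
  have hB : ∀ ξ, 0 ≤ qd B ξ := fun ξ => by
    have c1 := Finset.sum_mul_sq_le_sq_mul_sq Finset.univ e ξ
    rw [he, one_mul] at c1
    have := ha ξ
    simp only [B, I]
    rw [qd_sub (fun i j => a i j - l / 2 * (e i * e j)), qd_sub, qd_one, qd_id]
    nlinarith [s0 ξ]
  have hC : ∀ ξ, 0 ≤ qd C ξ := fun ξ => by
    have := quad_le_of_bd hab ξ
    simp only [C, I]
    rw [qd_sub, qd_id]
    exact sub_nonneg.2 this
  have hI : ∀ ξ, 0 ≤ qd I ξ := fun ξ => by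
    simp only [I]; rw [qd_id]; exact mul_nonneg (mul_nonneg n0 hε) (s0 ξ)
  have tI : ∑ i, I i i = n * (n * ε) := by simp [I]
  have tB : ∑ i, B i i ≤ n * Λ := by
    have : ∑ i : Fin n, B i i ≤ ∑ _i : Fin n, Λ := Finset.sum_le_sum fun i _ => by
      have := (abs_le.1 (hΛ i i)).2
      have h5 : 0 ≤ l / 2 * (e i * e i) := mul_nonneg (by positivity) (mul_self_nonneg _)
      have h6 : 0 ≤ (n : ℝ) * ε := mul_nonneg n0 hε
      simp only [B, I, if_true]
      linarith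
    simpa using this
  have tC : ∑ i, C i i ≤ n * ε + n * (n * ε) := by
    have : ∑ i : Fin n, C i i ≤ ∑ _i : Fin n, (ε + n * ε) := Finset.sum_le_sum fun i _ => by
      have := (abs_le.1 (hab i i)).1
      simp only [C, I, if_true]
      linarith
    simpa [mul_add] using this
  have k1 := trp (Z := fun i j => X i j - Y i j) hB (fun i j => by rw [hX i j, hY i j])
    fun ξ => (qd_sub X Y ξ).le.trans (h1 ξ)
  have k3 := trp hI hX h3
  have k4 := trp (Z := fun i j => 0 - Y i j) hC (fun i j => by rw [hY i j]) fun ξ => by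
    rw [qd_sub (fun _ _ => 0)]
    have : qd (fun _ _ : Fin n => (0 : ℝ)) ξ = 0 := by simp [qd]
    rw [this, zero_sub]; exact h4 ξ
  have key : ∑ i, ∑ j, a i j * X i j - ∑ i, ∑ j, b i j * Y i j =
      ∑ i, ∑ j, B i j * (X i j - Y i j) + l / 2 * (qd X e - qd Y e) + ∑ i, ∑ j, I i j * X i j +
        ∑ i, ∑ j, C i j * (0 - Y i j) := by
    simp only [qd, Finset.mul_sum, mul_sub (l / 2), ← Finset.sum_sub_distrib,
      ← Finset.sum_add_distrib]
    refine Finset.sum_congr rfl fun i _ => Finset.sum_congr rfl fun j _ => ?_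
    simp only [B, C]
    ring
  rw [key, tI] at *
  have m1 := mul_le_mul_of_nonneg_left tB (by positivity : 0 ≤ 2 * P)
  have m2 := mul_le_mul_of_nonneg_left h2 (by positivity : 0 ≤ l / 2)
  have m4 := mul_le_mul_of_nonneg_left tC hT
  linarith

theorem sec {h h1 : ℝ → ℝ} {c : ℝ} (hm : IsLocalMax h 0)
    (hd : ∀ᶠ t in 𝓝 (0 : ℝ), HasDerivAt h (h1 t) t) (hd2 : HasDerivAt h1 c 0) : c ≤ 0 := by
  have e : deriv h =ᶠ[𝓝 0] h1 := hd.mono fun t ht => ht.deriv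
  have := deriv2_nonpos_of_max hm hd.self_of_nhds.continuousAt
  rwa [e.deriv_eq, hd2.deriv] at this

theorem line (y ξ : E n) (t : ℝ) : HasDerivAt (fun t : ℝ => y + t • ξ) ξ t := by
  simpa using ((hasDerivAt_id t).smul_const ξ).const_add y

theorem line1 {w : E n → ℝ} (hw : ContDiff ℝ 2 w) (y ξ : E n) (t : ℝ) :
    HasDerivAt (fun t : ℝ => w (y + t • ξ)) (∑ j, ξ j * pd j w (y + t • ξ)) t := by
  have d := diff2 (hw.contDiffAt (x := y + t • ξ))
  rw [← fderiv_eq_sum d]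
  exact d.hasFDerivAt.comp_hasDerivAt t (line y ξ t)

theorem line2 {w : E n → ℝ} (hw : ContDiff ℝ 2 w) (y ξ : E n) :
    HasDerivAt (fun t : ℝ => ∑ j, ξ j * pd j w (y + t • ξ))
      (qd (fun i j => pd i (pd j w) y) ξ) 0 := by
  have h : ∀ j, HasDerivAt (fun t : ℝ => ξ j * pd j w (y + t • ξ))
      (ξ j * ∑ i, ξ i * pd i (pd j w) y) 0 := fun j => by
    have d := diffAt_pd (hw.contDiffAt (x := y)) j
    rw [← fderiv_eq_sum d]
    refine HasDerivAt.const_mul _ ?_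
    have d' : HasFDerivAt (pd j w) (fderiv ℝ (pd j w) y) (y + (0 : ℝ) • ξ) := by
      simpa using d.hasFDerivAt
    exact d'.comp_hasDerivAt (0 : ℝ) (line y ξ 0)
  refine (HasDerivAt.fun_sum fun j _ => h j).congr_deriv ?_
  simp only [qd, Finset.mul_sum]
  rw [Finset.sum_comm]
  exact Finset.sum_congr rfl fun i _ => Finset.sum_congr rfl fun j _ => by ring

theorem nsq (v ζ : E n) (t : ℝ) :
    ‖v + t • ζ‖ ^ 2 = ‖v‖ ^ 2 + 2 * t * inner ℝ v ζ + t ^ 2 * ‖ζ‖ ^ 2 := by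
  rw [norm_add_sq_real, inner_smul_right, norm_smul, mul_pow, Real.norm_eq_abs, sq_abs]
  ring

/-- the modulus -/
def om (L r γ s : ℝ) : ℝ := L * (s - r * (s / r) ^ (1 + γ) / (1 + γ))

theorem d_om {L r γ s : ℝ} (hr : 0 < r) (hγ : 0 < γ) (hs : 0 < s) :
    HasDerivAt (om L r γ) (L * (1 - (s / r) ^ γ)) s := by
  have h := ((hasDerivAt_id s).div_const r).rpow_const (p := 1 + γ)
    (Or.inl (by simpa using (div_pos hs hr).ne'))
  refine ((((hasDerivAt_id s).sub ((h.const_mul r).div_const (1 + γ)))).const_mul L).congr_deriv ?_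
  simp only [id, add_sub_cancel_left]
  field_simp

theorem two {w : E n → ℝ} (hw : ContDiff ℝ 2 w) {x y z : E n} {L r γ P : ℝ} (hr : 0 < r)
    (hγ : 0 < γ) (hne : y - z ≠ 0)
    (hm : IsLocalMax (fun p : E n × E n =>
      w p.1 - w p.2 - om L r γ ‖p.1 - p.2‖ - P * ‖p.1 - x‖ ^ 2) (y, z)) (ξ η : E n) :
    qd (fun i j => pd i (pd j w) y) ξ - qd (fun i j => pd i (pd j w) z) η ≤
      L * (-(γ * (‖y - z‖ / r) ^ γ / ‖y - z‖ * (inner ℝ (y - z) (ξ - η) / ‖y - z‖) ^ 2) +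
        (1 - (‖y - z‖ / r) ^ γ) * (‖ξ - η‖ ^ 2 - (inner ℝ (y - z) (ξ - η) / ‖y - z‖) ^ 2) /
          ‖y - z‖) + 2 * P * ‖ξ‖ ^ 2 := by
  set v := y - z with hv
  set ζ := ξ - η with hζ
  set d := ‖v‖ with hd
  set p : ℝ := inner ℝ v ζ with hp
  set N := ‖ζ‖ ^ 2 with hN
  have d0 : 0 < d := norm_pos_iff.2 hne
  let q : ℝ → ℝ := fun t => d ^ 2 + 2 * t * p + t ^ 2 * N
  have dq : ∀ t, HasDerivAt q (2 * (p + t * N)) t := fun t => by
    refine ((((hasDerivAt_id t).const_mul 2).mul_const p).const_add (d ^ 2)).add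
      ((hasDerivAt_pow 2 t).mul_const N) |>.congr_deriv ?_
    simp; ring
  have q0 : q 0 = d ^ 2 := by simp [q]
  have s0 : √(q 0) = d := by rw [q0, Real.sqrt_sq d0.le]
  have ds : ∀ t, 0 < q t → HasDerivAt (fun t => √(q t)) ((p + t * N) / √(q t)) t := fun t ht => by
    refine ((dq t).sqrt ht.ne').congr_deriv ?_
    have := Real.sqrt_pos.2 ht
    field_simp
  have ev : ∀ᶠ t in 𝓝 (0 : ℝ), 0 < q t :=
    (dq 0).continuousAt.eventually (lt_mem_nhds (by rw [q0]; positivity))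
  let c : ℝ := inner ℝ (y - x) ξ
  have cl : ContinuousAt (fun t : ℝ => (y + t • ξ, z + t • η)) 0 := by fun_prop
  have mx : IsLocalMax (fun t : ℝ => w (y + t • ξ) - w (z + t • η) - om L r γ √(q t) -
      P * (‖y - x‖ ^ 2 + 2 * t * c + t ^ 2 * ‖ξ‖ ^ 2)) 0 := by
    have h0 : (y, z) = (fun t : ℝ => (y + t • ξ, z + t • η)) 0 := by simp
    rw [h0] at hm
    have := IsLocalMax.comp_continuous (g := fun t : ℝ => (y + t • ξ, z + t • η)) (b := 0) hm cl
    refine (congrArg (fun f => IsLocalMax f 0) (funext fun t => ?_)).mp this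
    have e1 : y + t • ξ - (z + t • η) = v + t • ζ := by rw [hv, hζ, smul_sub]; abel
    have e2 : y + t • ξ - x = y - x + t • ξ := by abel
    simp only [Function.comp, e1, e2]
    rw [nsq (y - x), show q t = ‖v + t • ζ‖ ^ 2 from (nsq v ζ t).symm,
      Real.sqrt_sq (norm_nonneg _)]
  have dP : ∀ t : ℝ, HasDerivAt (fun t : ℝ => P * (‖y - x‖ ^ 2 + 2 * t * c + t ^ 2 * ‖ξ‖ ^ 2))
      (P * (2 * c + 2 * t * ‖ξ‖ ^ 2)) t := fun t => by
    refine (((((hasDerivAt_id t).const_mul 2).mul_const c).const_add (‖y - x‖ ^ 2)).add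
      ((hasDerivAt_pow 2 t).mul_const (‖ξ‖ ^ 2))).const_mul P |>.congr_deriv ?_
    simp
  have h1 : ∀ᶠ t in 𝓝 (0 : ℝ), HasDerivAt (fun t : ℝ => w (y + t • ξ) - w (z + t • η) -
      om L r γ √(q t) - P * (‖y - x‖ ^ 2 + 2 * t * c + t ^ 2 * ‖ξ‖ ^ 2))
      (∑ j, ξ j * pd j w (y + t • ξ) - ∑ j, η j * pd j w (z + t • η) -
        L * (1 - (√(q t) / r) ^ γ) * ((p + t * N) / √(q t)) - P * (2 * c + 2 * t * ‖ξ‖ ^ 2)) t :=
    ev.mono fun t ht => by
      have k1 : HasDerivAt (fun t => om L r γ √(q t))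
          (L * (1 - (√(q t) / r) ^ γ) * ((p + t * N) / √(q t))) t :=
        HasDerivAt.comp (h₂ := om L r γ) t (d_om hr hγ (Real.sqrt_pos.2 ht)) (ds t ht)
      exact (((line1 hw y ξ t).fun_sub (line1 hw z η t)).fun_sub k1).fun_sub (dP t)
  have ds0 := ds 0 (by rw [q0]; positivity)
  have a1 := ((((ds0.div_const r).rpow_const (p := γ)
    (Or.inl (by rw [s0]; positivity))).const_sub 1).const_mul L).mul
    ((((hasDerivAt_id (0 : ℝ)).mul_const N).const_add p).div ds0 (by rw [s0]; exact d0.ne'))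
  have a2 : HasDerivAt (fun t : ℝ => P * (2 * c + 2 * t * ‖ξ‖ ^ 2)) (P * (2 * ‖ξ‖ ^ 2)) 0 := by
    simpa using (((((hasDerivAt_id (0 : ℝ)).const_mul 2).mul_const (‖ξ‖ ^ 2)).const_add
      (2 * c)).const_mul P)
  have h2 := sec mx h1 ((((line2 hw y ξ).sub (line2 hw z η)).sub a1).sub a2)
  simp only [s0, id, zero_mul, add_zero, one_mul, Pi.div_apply] at h2
  rw [Real.rpow_sub_one (div_pos d0 hr).ne'] at h2
  refine le_of_sub_nonpos (le_of_eq_of_le ?_ h2)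
  field_simp
  ring

end Vale.Agent.P366Z.H.TlH
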